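import Vale.Agent.P269.Fock.Vir

/-! The canonical Heisenberg calculus, the three pieces of a quantisation, the canonical form of
the Virasoro constraints. -/

namespace Vale.Agent.P269.Fock

open Finset

section canon

variable {K : Type*} [CommRing K] [Algebra ℚ K] {V : Type*} [AddCommGroup V] [Module K V]
  (p : Par K V) (d0 : V)

/-- Multiplication by a generator. -/
noncomputable def ml : V →ₗ[K] Module.End K (S p) := LinearMap.mul K _ ∘ₗ ι p

/-- The shifted contraction. -/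
noncomputable def hm : Module.Dual K V →ₗ[K] Module.End K (S p) :=
  con p - (LinearMap.applyₗ d0).smulRight 1

/-- The canonical Heisenberg representation. -/
noncomputable def hD : V × Module.Dual K V →ₗ[K] Module.End K (S p) := (ml p).coprod (hm p d0)

/-- The first order part. -/
noncomputable def Q0 : Module.End K V →ₗ[K] Module.End K (S p) :=
  dv p - ml p ∘ₗ LinearMap.applyₗ d0

/-- The second order part. -/
noncomputable def Qm : SymB p →ₗ[K] Module.End K (S p) :=
  con2 p - con p ∘ₗ LinearMap.applyₗ d0 ∘ₗ (SymB p).subtype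

variable {p d0}

omit [Algebra ℚ K] in
@[simp] lemma ml_apply (v : V) (x : S p) : ml p v x = ι p v * x := rfl

lemma hm_apply (φ : Module.Dual K V) (x : S p) : hm p d0 φ x = con p φ x - φ d0 • x := rfl

lemma hD_apply (y : V × Module.Dual K V) (x : S p) :
    hD p d0 y x = ι p y.1 * x + hm p d0 y.2 x := rfl

lemma hD_eq (y : V × Module.Dual K V) : hD p d0 y = ml p y.1 + hm p d0 y.2 := rfl

lemma Q0_apply (A : Module.End K V) (x : S p) : Q0 p d0 A x = dv p A x - ι p (A d0) * x := rfl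

lemma Qm_apply (W : SymB p) (x : S p) : Qm p d0 W x = con2 p W x - con p (W.1 d0) x := rfl

variable (hd : p.σ d0 = d0)
include hd

lemma Q0_ml {A : Module.End K V} (hA : IsEv p p A) (v : V) :
    Q0 p d0 A * ml p v - ml p v * Q0 p d0 A = ml p (A v) := by
  have h1 : p.σ (A d0) = A d0 := by rw [hA, hd]
  ext x
  simp only [LinearMap.sub_apply, Module.End.mul_apply, ml_apply, Q0_apply, dv_ι_mul hA, mul_sub]
  rw [← mul_assoc, ← mul_assoc, ι_comm_ev h1]
  abel

lemma Q0_hm {A : Module.End K V} (hA : IsEv p p A) (φ : Module.Dual K V) :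
    Q0 p d0 A * hm p d0 φ - hm p d0 φ * Q0 p d0 A = -hm p d0 (φ ∘ₗ A) := by
  have h1 : p.σ (A d0) = A d0 := by rw [hA, hd]
  ext x
  simp only [LinearMap.sub_apply, Module.End.mul_apply, Q0_apply, hm_apply, map_sub, map_smul,
    dv_con hA, con_ι_mul_ev _ h1, mul_smul_comm, smul_sub, mul_sub, LinearMap.neg_apply,
    LinearMap.comp_apply]
  abel

lemma SymB.σ_dil (W : SymB p) : W.1 d0 ∘ₗ p.σ = W.1 d0 := by rw [SymB.comp_σ W.2, hd]

lemma Qm_ml (W : SymB p) (v : V) :
    Qm p d0 W * ml p v - ml p v * Qm p d0 W = hm p d0 (W.1 v) := by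
  have e := W.2 v d0
  rw [hd] at e
  ext x
  simp only [LinearMap.sub_apply, Module.End.mul_apply, ml_apply, Qm_apply, con2_ι_mul,
    con_ι_mul_of_ev (SymB.σ_dil hd W), hm_apply, mul_sub, e]
  abel

lemma Qm_hm (W : SymB p) (φ : Module.Dual K V) :
    Qm p d0 W * hm p d0 φ - hm p d0 φ * Qm p d0 W = 0 := by
  ext x
  simp only [LinearMap.sub_apply, Module.End.mul_apply, Qm_apply, hm_apply, map_sub, map_smul,
    con2_con, con_con_ev (SymB.σ_dil hd W), smul_sub, LinearMap.zero_apply]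
  abel

omit hd

omit [Algebra ℚ K] in
lemma mul_apply'' (C x : S p) : LinearMap.mul K (S p) C x = C * x := rfl

lemma mul_ml {C : S p} (hC : par p C = C) (v : V) :
    LinearMap.mul K (S p) C * ml p v - ml p v * LinearMap.mul K (S p) C = 0 := by
  ext x
  simp only [LinearMap.sub_apply, Module.End.mul_apply, ml_apply, mul_apply'',
    LinearMap.zero_apply]
  rw [← mul_assoc, comm_ev hC, mul_assoc, sub_self]

lemma mul_hm {C : S p} (hC : par p C = C) (φ : Module.Dual K V) :
    LinearMap.mul K (S p) C * hm p d0 φ - hm p d0 φ * LinearMap.mul K (S p) C =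
      -LinearMap.mul K (S p) (con p φ C) := by
  ext x
  simp only [LinearMap.sub_apply, Module.End.mul_apply, mul_apply'', hm_apply, con_mul_ev _ hC,
    mul_sub, mul_smul_comm, LinearMap.neg_apply]
  abel

/-- The symbol of a general quadratic operator. -/
theorem isQ_hD (hd : p.σ d0 = d0) {A : Module.End K V} (hA : IsEv p p A) (W : SymB p) {C : S p}
    (hC : par p C = C) {Cs : Module.Dual K V → V} (hCs : ∀ φ, con p φ C = ι p (Cs φ))
    {T : Module.End K (V × Module.Dual K V)}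
    (hT : ∀ v φ, T (v, φ) = (A v - Cs φ, W.1 v - φ ∘ₗ A)) :
    IsQ (hD p d0) (Q0 p d0 A + Qm p d0 W + LinearMap.mul K (S p) C) T := by
  rintro ⟨v, φ⟩
  have e1 := Q0_ml hd hA v
  have e2 := Q0_hm hd hA φ
  have e3 := Qm_ml hd W v
  have e4 := Qm_hm hd W φ
  have e5 := mul_ml hC v
  have e6 := mul_hm (d0 := d0) hC φ
  have e7 : LinearMap.mul K (S p) (con p φ C) = ml p (Cs φ) := by rw [hCs]; rfl
  simp only [hD_eq, hT, map_sub, mul_add, add_mul]
  rw [e7] at e6
  linear_combination (norm := abel) e1 + e2 + e3 + e4 + e5 + e6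

/-- Canonical commutation relations. -/
structure CCR {HH E : Type*} [AddCommGroup HH] [Module K HH] [AddCommGroup E] [Module K E]
    (q : Par K HH) (h : HH →ₗ[K] Module.End K E) (ω : HH → HH → K) : Prop where
  ev : ∀ x, q.σ x = x → ∀ y, h x * h y - h y * h x = ω x y • 1
  od : ∀ x y, q.σ x = -x → q.σ y = -y → h x * h y + h y * h x = ω x y • 1
  orth : ∀ x y, q.σ x = x → q.σ y = -y → ω x y = 0

omit [Algebra ℚ K] in
lemma CCR.comp {HH HH' E : Type*} [AddCommGroup HH] [Module K HH] [AddCommGroup E] [Module K E]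
    [AddCommGroup HH'] [Module K HH'] {q : Par K HH} {q' : Par K HH'}
    {h : HH →ₗ[K] Module.End K E} {ω : HH → HH → K} (H : CCR q h ω) {g : HH' →ₗ[K] HH}
    (hg : IsEv q' q g) {ω' : HH' → HH' → K} (e : ∀ x y, ω (g x) (g y) = ω' x y) :
    CCR q' (h ∘ₗ g) ω' :=
  ⟨fun x hx y => e x y ▸ H.ev _ (by rw [hg, hx]) _, fun x y hx hy =>
    e x y ▸ H.od _ _ (by rw [hg, hx, map_neg]) (by rw [hg, hy, map_neg]), fun x y hx hy =>
    e x y ▸ H.orth _ _ (by rw [hg, hx]) (by rw [hg, hy, map_neg])⟩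

variable (p) in
/-- The parity of the canonical Heisenberg space. -/
noncomputable def Par.dbl : Par K (V × Module.Dual K V) := p.prod (p.hom (Par.triv K K))

omit [Algebra ℚ K] in
lemma Par.dbl_σ (x : V × Module.Dual K V) : p.dbl.σ x = (p.σ x.1, x.2 ∘ₗ p.σ) := rfl

theorem ccr_hD (hd : p.σ d0 = d0) :
    CCR p.dbl (hD p d0) fun x y => x.2 y.1 - y.2 (p.σ x.1) := by
  constructor
  · rintro ⟨v, φ⟩ hx ⟨w, ψ⟩
    obtain ⟨h1, h2⟩ := Prod.mk.inj hx
    have h1 : p.σ v = v := h1
    have h2 : φ ∘ₗ p.σ = φ := h2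
    ext x
    simp only [LinearMap.sub_apply, Module.End.mul_apply, hD_apply, hm_apply, map_add, map_sub,
      map_smul, con_ι_mul_of_ev h2, con_ι_mul_ev _ h1, con_con_ev h2, mul_add, mul_sub,
      mul_smul_comm, h1, LinearMap.smul_apply, Module.End.one_apply]
    rw [← mul_assoc, ← mul_assoc, ι_comm_ev h1]
    module
  · rintro ⟨v, φ⟩ ⟨w, ψ⟩ hx hy
    obtain ⟨h1, h2⟩ := Prod.mk.inj hx
    obtain ⟨h3, h4⟩ := Prod.mk.inj hy
    have h1 : p.σ v = -v := h1
    have h2 : φ ∘ₗ p.σ = -φ := h2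
    have h3 : p.σ w = -w := h3
    have h4 : ψ ∘ₗ p.σ = -ψ := h4
    ext x
    have e := con_con_od h2 ψ x
    rw [h4, map_neg, LinearMap.neg_apply, map_neg] at e
    simp only [LinearMap.add_apply, Module.End.mul_apply, hD_apply, hm_apply, map_add,
      con_ι_mul_of_od h2, con_ι_mul_of_od h4, mul_add, apply_eq_zero_of_od_ev h2 hd,
      apply_eq_zero_of_od_ev h4 hd, zero_smul, sub_zero, h1, h3, map_neg, neg_mul, ← e,
      LinearMap.smul_apply, Module.End.one_apply]
    rw [← mul_assoc, ← mul_assoc, (sc_ι p).od v w h1 h3, neg_mul]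
    module
  · rintro ⟨v, φ⟩ ⟨w, ψ⟩ hx hy
    obtain ⟨h1, h2⟩ := Prod.mk.inj hx
    obtain ⟨h3, h4⟩ := Prod.mk.inj hy
    have h1 : p.σ v = v := h1
    have h2 : φ ∘ₗ p.σ = φ := h2
    have h3 : p.σ w = -w := h3
    have h4 : ψ ∘ₗ p.σ = -ψ := h4
    simp only [h1, apply_eq_zero_of_ev_od h2 h3, apply_eq_zero_of_od_ev h4 h1, sub_self]

section rep

variable {E : Type*} [AddCommGroup E] [Module K E] {ρ : V →ₗ[K] Module.End K E}

omit [Algebra ℚ K] in
/-- The map `x ↦ ρ(x) Ω`. -/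
noncomputable def orb (hρ : SC p ρ) (Ω : E) : S p →ₗ[K] E :=
  LinearMap.applyₗ Ω ∘ₗ (lift ρ hρ).toLinearMap

omit [Algebra ℚ K] in
@[simp] lemma orb_one (hρ : SC p ρ) (Ω : E) : orb hρ Ω 1 = Ω := by simp [orb]

omit [Algebra ℚ K] in
@[simp] lemma orb_ι_mul (hρ : SC p ρ) (Ω : E) (v : V) (x : S p) :
    orb hρ Ω (ι p v * x) = ρ v (orb hρ Ω x) := by simp [orb]

lemma orb_con_ev (hρ : SC p ρ) {Ω : E} {φ : Module.Dual K V} (hφ : φ ∘ₗ p.σ = φ)
    {T : Module.End K E} (hT : ∀ v, T * ρ v - ρ v * T = φ v • 1) (h0 : T Ω = 0) (x : S p) :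
    orb hρ Ω (con p φ x) = T (orb hρ Ω x) := by
  induction x using induction with
  | h1 => simp [h0]
  | hι v x hx =>
    have := LinearMap.congr_fun (hT v) (orb hρ Ω x)
    simp only [LinearMap.sub_apply, Module.End.mul_apply, LinearMap.smul_apply,
      Module.End.one_apply] at this
    rw [con_ι_mul_of_ev hφ, map_add, map_smul, orb_ι_mul, orb_ι_mul, hx, ← this]; abel
  | hadd x y hx hy => simp only [map_add, hx, hy]
  | hsmul c x hx => simp only [map_smul, hx]

lemma orb_con_od (hρ : SC p ρ) {Ω : E} {φ : Module.Dual K V} (hφ : φ ∘ₗ p.σ = -φ)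
    {T : Module.End K E} (hT : ∀ v, T * ρ v - ρ (p.σ v) * T = φ v • 1) (h0 : T Ω = 0) (x : S p) :
    orb hρ Ω (con p φ x) = T (orb hρ Ω x) := by
  induction x using induction with
  | h1 => simp [h0]
  | hι v x hx =>
    have := LinearMap.congr_fun (hT v) (orb hρ Ω x)
    simp only [LinearMap.sub_apply, Module.End.mul_apply, LinearMap.smul_apply,
      Module.End.one_apply] at this
    rw [con_ι_mul_of_od hφ, map_add, map_smul, orb_ι_mul, orb_ι_mul, hx, ← this]; abel
  | hadd x y hx hy => simp only [map_add, hx, hy]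
  | hsmul c x hx => simp only [map_smul, hx]

variable {HH : Type*} [AddCommGroup HH] [Module K HH] {q : Par K HH}
  {h : HH →ₗ[K] Module.End K E} {ω : HH → HH → K}

lemma CCR.sc (H : CCR q h ω) {u : V →ₗ[K] HH} (hu : IsEv p q u) (h0 : ∀ v w, ω (u v) (u w) = 0) :
    SC p (h ∘ₗ u) := by
  constructor
  · intro v w hw
    have := H.ev (u w) (by rw [hu, hw]) (u v)
    rwa [h0, zero_smul, sub_eq_zero] at this
  · intro v w hv hw
    have := H.od (u v) (u w) (by rw [hu, hv, map_neg]) (by rw [hu, hw, map_neg])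
    rwa [h0, zero_smul, add_eq_zero_iff_eq_neg] at this

/-- The universal property of the Fock representation. `u v` are the creation operators, `N` is
the space of annihilation operators, `φ y = ω(y, u ·)`. -/
theorem CCR.orb_hm (H : CCR q h ω) {u : V →ₗ[K] HH} (hu : IsEv p q u)
    (h0 : ∀ v w, ω (u v) (u w) = 0) {N : Type*} [AddCommGroup N] [Module K N] {r : Par K N}
    {n : N →ₗ[K] HH} (hn : IsEv r q n) {φ : N →ₗ[K] Module.Dual K V}
    (hφ : ∀ y v, φ y v = ω (n y) (u v)) (hσ : ∀ y, φ y ∘ₗ p.σ = φ (r.σ y)) (hd : p.σ d0 = d0)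
    {Ω : E} (hΩ : ∀ y, h (n y) Ω = -(φ y d0 • Ω)) (y : N) (x : S p) :
    orb (H.sc hu h0) Ω (hm p d0 (φ y) x) = h (n y) (orb (H.sc hu h0) Ω x) := by
  induction y using r.induction with
  | hev y hy =>
    have e : φ y ∘ₗ p.σ = φ y := by rw [hσ, hy]
    rw [hm_apply, map_sub, map_smul, orb_con_ev _ e (T := h (n y) + φ y d0 • 1) (fun v => by
      have := H.ev (n y) (by rw [hn, hy]) (u v)
      rw [hφ y v, ← this]
      simp [add_mul, mul_add]) (by simp [hΩ])]
    simp
  | hod y hy =>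
    have e : φ y ∘ₗ p.σ = -φ y := by rw [hσ, hy, map_neg]
    have e0 : φ y d0 = 0 := apply_eq_zero_of_od_ev e hd
    have hy' : q.σ (n y) = -n y := by rw [hn, hy, map_neg]
    rw [hm_apply, e0, zero_smul, sub_zero, orb_con_od _ e (T := h (n y)) (fun v => ?_)
      (by simp [hΩ, e0])]
    induction v using p.induction with
    | hev v hv =>
      have := H.ev (u v) (by rw [hu, hv]) (n y)
      rw [H.orth _ _ (by rw [hu, hv]) hy', zero_smul, sub_eq_zero] at this
      rw [hv, apply_eq_zero_of_od_ev e hv, zero_smul, sub_eq_zero]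
      exact this.symm
    | hod v hv =>
      have := H.od (n y) (u v) hy' (by rw [hu, hv, map_neg])
      rw [hv, hφ, ← this]
      simp
    | hadd v w hv hw =>
      simp only [map_add, mul_add, add_mul, add_smul, ← hv, ← hw]; abel
  | hadd y z hy hz => simp only [map_add, LinearMap.add_apply, hy, hz]

end rep

end canon

namespace Frame

variable {K : Type*} [CommRing K] [Algebra ℚ K] {H : Type*} [AddCommGroup H] [Module K H]
  {p : Par K H} {ι : Type*} [Fintype ι] (fr : Frame p ι)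

/-- The part of `qz` of order `ħ^0`. -/
noncomputable def q0 (A : Module.End K (LL H)) : Module.End K (S (p.fs ℕ)) :=
  dv _ (blk A) - LinearMap.mulLeft K (Fock.ι _ (blk A fr.dil))

/-- The part of `qz` of order `ħ⁻¹`. -/
noncomputable def qm (A : Module.End K (LL H)) : Module.End K (S (p.fs ℕ)) :=
  con2 _ (fr.qf A) - con _ (fr.neg (A (up K H fr.dil)))

/-- The part of `qz` of order `ħ`. -/
noncomputable def q1 (A : Module.End K (LL H)) : Module.End K (S (p.fs ℕ)) :=
  LinearMap.mulLeft K (fr.cas A)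

lemma qz_eq (A : Module.End K (LL H)) : fr.qz A = fr.q0 A + fr.qm A + fr.q1 A := by
  rw [qz, q0, qm, q1]; abel

lemma q0_eq (A : Module.End K (LL H)) : fr.q0 A = Q0 _ fr.dil (blk A) := rfl

lemma q1_eq (A : Module.End K (LL H)) : fr.q1 A = LinearMap.mul K _ (fr.cas A) := rfl

variable {fr} in
lemma Quad.qm_eq {A : Module.End K (LL H)} (hA : fr.Quad A) :
    fr.qm A = Qm _ fr.dil (fr.qf A) := by
  rw [qm, ← hA.qf_val]; rfl

lemma h_eq (y : LL H) : fr.h y = hD _ fr.dil (pos K H y, fr.neg y) := by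
  ext x; rw [h_apply, hD_apply, hm_apply, add_sub_assoc]

lemma h_eq' (y : LL H) : fr.h y = ml _ (pos K H y) + hm _ fr.dil (fr.neg y) := fr.h_eq y

omit [Algebra ℚ K] in
lemma Ω_split (y y' : LL H) :
    fr.Ω y y' = fr.neg y (pos K H y') - fr.neg y' ((p.fs ℕ).σ (pos K H y)) := by
  have e : y = up K H (pos K H y) + (y - up K H (pos K H y)) := by abel
  have h1 : pos K H (y - up K H (pos K H y)) = 0 := by simp
  conv_lhs => rw [e, map_add, LinearMap.add_apply, ← fr.Ω_of_pos_eq_zero h1, Ω_skew]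
  rw [neg_apply, neg_apply, ← isEv_up, Ω_σ, map_sub, LinearMap.sub_apply, Ω_up_up]
  abel

theorem ccr : CCR (p.fs ℤ) fr.h fun y y' => fr.Ω y y' := by
  have := (ccr_hD (p := p.fs ℕ) fr.σ_dil).comp (q' := p.fs ℤ) (g := (pos K H).prod fr.neg)
    (fun y => Prod.ext (isEv_pos p y) (fr.neg_comp_σ y)) (ω' := fun y y' => fr.Ω y y')
    fun y y' => (fr.Ω_split y y').symm
  rwa [show hD _ fr.dil ∘ₗ (pos K H).prod fr.neg = fr.h from
    LinearMap.ext fun y => (fr.h_eq y).symm] at this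

/-- The universal property of the Fock representation of the loop space. -/
theorem exists_itw {E : Type*} [AddCommGroup E] [Module K E] {h' : LL H →ₗ[K] Module.End K E}
    (H' : CCR (p.fs ℤ) h' fun y y' => fr.Ω y y') {Ω : E}
    (hΩ : ∀ y, pos K H y = 0 → h' y Ω = -(fr.neg y fr.dil • Ω)) :
    ∃ G : S (p.fs ℕ) →ₗ[K] E, G 1 = Ω ∧ Itw fr.h h' LinearMap.id G := by
  let n : LL H →ₗ[K] LL H := LinearMap.id - up K H ∘ₗ pos K H
  have hn : IsEv (p.fs ℤ) (p.fs ℤ) n := IsEv.sub (fun _ => rfl) ((isEv_up p).comp (isEv_pos p))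
  have hn' : ∀ y, fr.neg (n y) = fr.neg y := fun y => by simp [n]
  refine ⟨orb (H'.sc (isEv_up p) fr.Ω_up_up) Ω, orb_one _ _, fun y => ?_⟩
  ext x
  have := H'.orb_hm (isEv_up p) fr.Ω_up_up hn (φ := fr.neg) (fun y v => by rw [← hn']; rfl)
    fr.neg_comp_σ fr.σ_dil (Ω := Ω) (fun y => by rw [hΩ _ (by simp [n]), hn']) y x
  simp only [LinearMap.comp_apply, h_eq', LinearMap.add_apply, map_add, this, ml_apply, orb_ι_mul,
    LinearMap.id_apply]
  rw [← LinearMap.add_apply, ← map_add]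
  simp [n]

end Frame

/-- The Virasoro constraints for `Z = ∑ ħ^j Z j`, coefficient by coefficient. -/
def VD.VirC {K : Type*} [CommRing K] [Algebra ℚ K] {H : Type*} [AddCommGroup H] [Module K H]
    {p : Par K H} {ι : Type*} [Fintype ι] {fr : Frame p ι} (d : VD fr) {M : Type*}
    [AddCommGroup M] [Module K M] (Z : ℤ → S (p.fs ℕ) →ₗ[K] M) : Prop :=
  ∀ (k : ℕ) (j : ℤ) (x : S (p.fs ℕ)), Z j (fr.q0 (d.ell k) x + (if k = 1 then d.c0 else 0) • x) +
    Z (j + 1) (fr.qm (d.ell k) x) + Z (j - 1) (fr.q1 (d.ell k) x) = 0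

end Vale.Agent.P269.Fock
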