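import Mathlib.Algebra.BigOperators.Finprod
import Mathlib.Algebra.Algebra.Bilinear
import Mathlib.RingTheory.PowerSeries.Basic
import Mathlib.Algebra.Field.IsField
import Mathlib.Tactic

/-! Laurent series `N((ε))` with coefficients in a module, as a module over `K((ε))`. -/

namespace Vale.Agent.P269.Fock

open Finset

/-- Laurent series with coefficients in the `K`-module `N`. -/
@[ext] structure Hat (K N : Type*) [Zero N] where
  co : ℤ → N
  bdd : ∃ L : ℤ, ∀ n < L, co n = 0

namespace Hat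

section basic

variable {K M N P : Type*} [AddCommGroup M] [AddCommGroup N] [AddCommGroup P]

instance : Zero (Hat K N) := ⟨⟨0, 0, fun _ _ => rfl⟩⟩

instance : Add (Hat K N) := ⟨fun x y => ⟨x.co + y.co, by
  obtain ⟨a, ha⟩ := x.bdd
  obtain ⟨b, hb⟩ := y.bdd
  exact ⟨min a b, fun n hn => by simp [ha n (by omega), hb n (by omega)]⟩⟩⟩

instance : Neg (Hat K N) := ⟨fun x => ⟨-x.co, x.bdd.imp fun _ h n hn => by simp [h n hn]⟩⟩

instance : Sub (Hat K N) := ⟨fun x y => ⟨x.co - y.co, by
  obtain ⟨a, ha⟩ := x.bdd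
  obtain ⟨b, hb⟩ := y.bdd
  exact ⟨min a b, fun n hn => by simp [ha n (by omega), hb n (by omega)]⟩⟩⟩

instance instSMulCo {R : Type*} [SMulZeroClass R N] : SMul R (Hat K N) :=
  ⟨fun c x => ⟨c • x.co, x.bdd.imp fun _ h n hn => by simp [h n hn]⟩⟩

lemma co_injective : Function.Injective (co : Hat K N → ℤ → N) := fun _ _ h => Hat.ext h

instance : AddCommGroup (Hat K N) :=
  co_injective.addCommGroup _ rfl (fun _ _ => rfl) (fun _ => rfl) (fun _ _ => rfl)
    (fun _ _ => rfl) fun _ _ => rfl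

@[simp] lemma co_zero (n : ℤ) : (0 : Hat K N).co n = 0 := rfl
@[simp] lemma co_add (x y : Hat K N) (n : ℤ) : (x + y).co n = x.co n + y.co n := rfl
@[simp] lemma co_neg (x : Hat K N) (n : ℤ) : (-x).co n = -x.co n := rfl
@[simp] lemma co_sub (x y : Hat K N) (n : ℤ) : (x - y).co n = x.co n - y.co n := rfl
@[simp] lemma co_smul {R : Type*} [SMulZeroClass R N] (c : R) (x : Hat K N) (n : ℤ) :
    (c • x).co n = c • x.co n := rfl

/-- The coefficients as an additive map. -/
def coA : Hat K N →+ ℤ → N := ⟨⟨co, rfl⟩, fun _ _ => rfl⟩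

instance instModuleCo {R : Type*} [Semiring R] [Module R N] : Module R (Hat K N) :=
  co_injective.module R coA fun _ _ => rfl

instance {R S : Type*} [SMulZeroClass R N] [SMulZeroClass S N] [SMul R S] [IsScalarTower R S N] :
    IsScalarTower R S (Hat K N) := ⟨fun a b x => Hat.ext (smul_assoc a b x.co)⟩

instance {R S : Type*} [SMulZeroClass R N] [SMulZeroClass S N] [SMulCommClass R S N] :
    SMulCommClass R S (Hat K N) := ⟨fun a b x => Hat.ext (smul_comm a b x.co)⟩

lemma co_sum {α : Type*} (s : Finset α) (f : α → Hat K N) (n : ℤ) :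
    (∑ a ∈ s, f a).co n = ∑ a ∈ s, (f a).co n := by
  have := congrFun (map_sum (coA (K := K)) f s) n
  rwa [Finset.sum_apply] at this

/-- One coefficient as a linear map. -/
def coL (R : Type*) [Semiring R] [Module R N] (n : ℤ) : Hat K N →ₗ[R] N where
  toFun x := x.co n
  map_add' _ _ := rfl
  map_smul' _ _ := rfl

@[simp] lemma coL_apply (R : Type*) [Semiring R] [Module R N] (n : ℤ) (x : Hat K N) :
    coL R n x = x.co n := rfl

/-- The series of order at least `L`. -/
def Lo (K N : Type*) [AddCommGroup N] (L : ℤ) : AddSubgroup (Hat K N) where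
  carrier := {x | ∀ n < L, x.co n = 0}
  add_mem' hx hy n hn := by simp [hx n hn, hy n hn]
  zero_mem' _ _ := rfl
  neg_mem' hx n hn := by simp [hx n hn]

lemma mem_Lo {L : ℤ} {x : Hat K N} : x ∈ Lo K N L ↔ ∀ n < L, x.co n = 0 := Iff.rfl

lemma Lo_mono {L L' : ℤ} (h : L' ≤ L) {x : Hat K N} (hx : x ∈ Lo K N L) : x ∈ Lo K N L' :=
  fun n hn => hx n (by omega)

lemma exists_Lo (x : Hat K N) : ∃ L, x ∈ Lo K N L := x.bdd

lemma eq_zero_of_Lo {x : Hat K N} (h : ∀ L, x ∈ Lo K N L) : x = 0 :=
  Hat.ext (funext fun n => h (n + 1) n (by omega))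

/-- The series all of whose coefficients lie in `U`. -/
def All (K : Type*) (U : AddSubgroup N) : AddSubgroup (Hat K N) where
  carrier := {x | ∀ n, x.co n ∈ U}
  add_mem' hx hy n := add_mem (hx n) (hy n)
  zero_mem' _ := zero_mem U
  neg_mem' hx n := neg_mem (hx n)

lemma mem_All {U : AddSubgroup N} {x : Hat K N} : x ∈ All K U ↔ ∀ n, x.co n ∈ U := Iff.rfl

/-- A monomial. -/
def single (K : Type*) (k : ℤ) : N →+ Hat K N where
  toFun v := ⟨Pi.single k v, k, fun n hn => by simp [hn.ne]⟩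
  map_zero' := by ext; simp
  map_add' v w := by ext n; simp [Pi.single_add]

lemma co_single (k : ℤ) (v : N) (n : ℤ) : (single K k v).co n = if n = k then v else 0 :=
  Pi.single_apply k v n

@[simp] lemma co_single_same (k : ℤ) (v : N) : (single K k v).co k = v := by simp [co_single]

lemma single_Lo (k : ℤ) (v : N) : single K k v ∈ Lo K N k := fun n hn => by simp [co_single, hn.ne]

lemma single_All {U : AddSubgroup N} (k : ℤ) {v : N} (h : v ∈ U) : single K k v ∈ All K U :=
  fun n => by rw [co_single]; split_ifs; exacts [h, zero_mem U]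

/-- Biadditive functions. -/
structure Bi (β : M → N → P) : Prop where
  l : ∀ a a' b, β (a + a') b = β a b + β a' b
  r : ∀ a b b', β a (b + b') = β a b + β a b'

variable {β : M → N → P}

lemma Bi.zl (h : Bi β) (b : N) : β 0 b = 0 := by simpa using h.l 0 0 b

lemma Bi.zr (h : Bi β) (a : M) : β a 0 = 0 := by simpa using h.r a 0 0

lemma Bi.sl (h : Bi β) {α : Type*} (s : Finset α) (f : α → M) (b : N) :
    β (∑ i ∈ s, f i) b = ∑ i ∈ s, β (f i) b :=
  map_sum (AddMonoidHom.mk' (β · b) fun a a' => h.l a a' b) f s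

lemma Bi.sr (h : Bi β) {α : Type*} (s : Finset α) (a : M) (f : α → N) :
    β a (∑ i ∈ s, f i) = ∑ i ∈ s, β a (f i) :=
  map_sum (AddMonoidHom.mk' (β a) fun b b' => h.r a b b') f s

lemma Bi.flip (h : Bi β) : Bi fun b a => β a b := ⟨fun _ _ _ => h.r _ _ _, fun _ _ _ => h.l _ _ _⟩

lemma finsum_cv (h : Bi β) {x : Hat K M} {y : Hat K N} {A B : ℤ} (hx : x ∈ Lo K M A)
    (hy : y ∈ Lo K N B) (n : ℤ) :
    ∑ᶠ i, β (x.co i) (y.co (n - i)) = ∑ i ∈ Icc A (n - B), β (x.co i) (y.co (n - i)) := by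
  refine finsum_eq_sum_of_support_subset _ fun i hi => ?_
  by_contra hc
  rw [coe_Icc, Set.mem_Icc, not_and_or] at hc
  rcases hc with hc | hc
  · exact hi (by simp only [hx i (by omega), h.zl])
  · exact hi (by simp only [hy (n - i) (by omega), h.zr])

/-- Convolution. -/
noncomputable def cv (β : M → N → P) (h : Bi β) (x : Hat K M) (y : Hat K N) : Hat K P where
  co n := ∑ᶠ i, β (x.co i) (y.co (n - i))
  bdd := by
    obtain ⟨A, hA⟩ := x.exists_Lo
    obtain ⟨B, hB⟩ := y.exists_Lo
    exact ⟨A + B, fun n hn => by rw [finsum_cv h hA hB, Icc_eq_empty (by omega), sum_empty]⟩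

lemma co_cv (h : Bi β) {x : Hat K M} {y : Hat K N} {A B : ℤ} (hx : x ∈ Lo K M A)
    (hy : y ∈ Lo K N B) (n : ℤ) :
    (cv β h x y).co n = ∑ i ∈ Icc A (n - B), β (x.co i) (y.co (n - i)) := finsum_cv h hx hy n

lemma cv_Lo (h : Bi β) {x : Hat K M} {y : Hat K N} {A B : ℤ} (hx : x ∈ Lo K M A)
    (hy : y ∈ Lo K N B) : cv β h x y ∈ Lo K P (A + B) := fun n hn => by
  rw [co_cv h hx hy, Icc_eq_empty (by omega), sum_empty]

lemma cv_mem (h : Bi β) {x : Hat K M} {y : Hat K N} {U : AddSubgroup P} {n : ℤ}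
    (H : ∀ i, β (x.co i) (y.co (n - i)) ∈ U) : (cv β h x y).co n ∈ U := by
  obtain ⟨A, hA⟩ := x.exists_Lo
  obtain ⟨B, hB⟩ := y.exists_Lo
  rw [co_cv h hA hB]
  exact sum_mem fun i _ => H i

lemma cv_add_left (h : Bi β) (x x' : Hat K M) (y : Hat K N) :
    cv β h (x + x') y = cv β h x y + cv β h x' y := by
  obtain ⟨A, hA⟩ := x.exists_Lo
  obtain ⟨A', hA'⟩ := x'.exists_Lo
  obtain ⟨B, hB⟩ := y.exists_Lo
  have h1 := Lo_mono (min_le_left A A') hA
  have h2 := Lo_mono (min_le_right A A') hA'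
  ext n
  simp only [co_add, co_cv h h1 hB, co_cv h h2 hB, co_cv h (add_mem h1 h2) hB, h.l, sum_add_distrib]

lemma cv_flip (h : Bi β) (x : Hat K M) (y : Hat K N) :
    cv (fun b a => β a b) h.flip y x = cv β h x y := by
  ext n
  refine (finsum_comp_equiv (Equiv.subLeft n)).symm.trans (finsum_congr fun i => ?_)
  simp

lemma cv_add_right (h : Bi β) (x : Hat K M) (y y' : Hat K N) :
    cv β h x (y + y') = cv β h x y + cv β h x y' := by
  rw [← cv_flip h, cv_add_left, cv_flip h, cv_flip h]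

lemma cv_congr {K' M' N' : Type*} [AddCommGroup M'] [AddCommGroup N'] {β' : M' → N' → P} (h : Bi β)
    (h' : Bi β') {x : Hat K M} {y : Hat K N} {x' : Hat K' M'} {y' : Hat K' N'}
    (H : ∀ i j, β (x.co i) (y.co j) = β' (x'.co i) (y'.co j)) (n : ℤ) :
    (cv β h x y).co n = (cv β' h' x' y').co n := finsum_congr fun _ => H _ _

lemma map_co_cv {P' F : Type*} [AddCommGroup P'] [FunLike F P P'] [AddMonoidHomClass F P P'] (f : F)
    (h : Bi β) (x : Hat K M) (y : Hat K N) (n : ℤ) :
    f ((cv β h x y).co n) = (cv (fun a b => f (β a b))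
      ⟨fun _ _ _ => by rw [h.l, map_add], fun _ _ _ => by rw [h.r, map_add]⟩ x y).co n := by
  obtain ⟨A, hA⟩ := x.exists_Lo
  obtain ⟨B, hB⟩ := y.exists_Lo
  rw [co_cv _ hA hB, co_cv _ hA hB, map_sum]

lemma cv_assoc {M' Q Q' : Type*} [AddCommGroup M'] [AddCommGroup Q] [AddCommGroup Q']
    {β1 : Q → M' → P} {β2 : M → N → Q} {β3 : M → Q' → P} {β4 : N → M' → Q'} (h1 : Bi β1)
    (h2 : Bi β2) (h3 : Bi β3) (h4 : Bi β4) (H : ∀ a b c, β1 (β2 a b) c = β3 a (β4 b c))
    (x : Hat K M) (y : Hat K N) (w : Hat K M') :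
    cv β1 h1 (cv β2 h2 x y) w = cv β3 h3 x (cv β4 h4 y w) := by
  obtain ⟨A, hA⟩ := x.exists_Lo
  obtain ⟨B, hB⟩ := y.exists_Lo
  obtain ⟨C, hC⟩ := w.exists_Lo
  ext n
  rw [co_cv h1 (cv_Lo h2 hA hB) hC, co_cv h3 hA (cv_Lo h4 hB hC)]
  simp only [co_cv h2 hA hB, co_cv h4 hB hC, h1.sl, h3.sr, H]
  rw [sum_sigma', sum_sigma']
  refine sum_nbij' (fun z => ⟨z.2, z.1 - z.2⟩) (fun z => ⟨z.1 + z.2, z.1⟩) ?_ ?_ ?_ ?_ ?_
  · rintro ⟨m, i⟩; simp only [mem_sigma, mem_Icc]; omega
  · rintro ⟨m, i⟩; simp only [mem_sigma, mem_Icc]; omega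
  · rintro ⟨m, i⟩ _; simp
  · rintro ⟨m, i⟩ _; simp
  · rintro ⟨m, i⟩ _; simp

lemma co_cv_single_left (h : Bi β) (k : ℤ) (a : M) (y : Hat K N) (n : ℤ) :
    (cv β h (single K k a) y).co n = β a (y.co (n - k)) := by
  refine (finsum_eq_single _ k fun i hi => ?_).trans (by simp)
  simp [co_single, hi, h.zl]

lemma co_cv_single_right (h : Bi β) (k : ℤ) (x : Hat K M) (b : N) (n : ℤ) :
    (cv β h x (single K k b)).co n = β (x.co (n - k)) b := by
  rw [← cv_flip, co_cv_single_left]

lemma cv_single (h : Bi β) (k l : ℤ) (a : M) (b : N) :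
    cv β h (single K k a) (single K l b) = single K (k + l) (β a b) := by
  ext n
  rw [co_cv_single_left, co_single, co_single]
  by_cases hn : n = k + l
  · simp [hn]
  · rw [if_neg hn, if_neg (by omega), h.zr]

/-- Fixed points of contractions. -/
theorem exists_fix {Φ : Hat K N → Hat K N} {x0 : Hat K N} {L : ℤ} {U : Set (Hat K N)}
    (hΦ : ∀ n x y, x - y ∈ Lo K N n → Φ x - Φ y ∈ Lo K N (n + 1)) (h0 : Φ x0 - x0 ∈ Lo K N L)
    (hU0 : x0 ∈ U) (hU : ∀ x ∈ U, Φ x ∈ U) :
    ∃ x, Φ x = x ∧ x - x0 ∈ Lo K N L ∧ ∀ n, ∃ y ∈ U, x - y ∈ Lo K N n := by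
  let s : ℕ → Hat K N := fun k => Φ^[k] x0
  have hs : ∀ k, s (k + 1) = Φ (s k) := fun k => Function.iterate_succ_apply' _ _ _
  have h1 : ∀ k : ℕ, s (k + 1) - s k ∈ Lo K N (L + k) := by
    intro k
    induction k with
    | zero => simpa [s] using h0
    | succ k ih => rw [hs (k + 1)]; nth_rw 2 [hs k]; exact Lo_mono (by push_cast; omega) (hΦ _ _ _ ih)
  have h2 : ∀ k m : ℕ, s (k + m) - s k ∈ Lo K N (L + k) := by
    intro k m
    induction m with
    | zero => simp
    | succ m ih =>
      have := add_mem (Lo_mono (L' := L + k) (by push_cast; omega) (h1 (k + m))) ih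
      rwa [sub_add_sub_cancel] at this
  obtain ⟨A, hA⟩ := x0.exists_Lo
  let x : Hat K N := ⟨fun n => (s ((n - L).toNat + 1)).co n, min A L, fun n hn => by
    have := h2 0 ((n - L).toNat + 1) n (by omega)
    rwa [zero_add, co_sub, show (s 0).co n = 0 from hA n (by omega), sub_zero] at this⟩
  have h3 : ∀ k : ℕ, x - s k ∈ Lo K N (L + k) := by
    intro k n hn
    have e1 := h2 k ((n - L).toNat + 1) n hn
    have e2 := h2 ((n - L).toNat + 1) k n (by omega)
    rw [co_sub] at e1 e2 ⊢
    rw [add_comm] at e2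
    rw [sub_eq_zero] at e1 e2 ⊢
    exact e2.symm.trans e1
  have hsU : ∀ k, s k ∈ U := fun k => by
    induction k with
    | zero => exact hU0
    | succ k ih => rw [hs]; exact hU _ ih
  refine ⟨x, sub_eq_zero.mp (eq_zero_of_Lo fun n => ?_), by simpa [s] using h3 0, fun n =>
    ⟨s (n - L).toNat, hsU _, Lo_mono (by omega) (h3 _)⟩⟩
  have e1 := hΦ _ _ _ (h3 (n - L).toNat)
  have e2 := h3 ((n - L).toNat + 1)
  rw [hs] at e2
  have := sub_mem (Lo_mono (L' := n) (by omega) e1) (Lo_mono (L' := n) (by push_cast; omega) e2)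
  rwa [sub_sub_sub_cancel_right] at this

lemma All_of_approx {U : AddSubgroup N} {x : Hat K N}
    (h : ∀ n, ∃ y ∈ (All K U : Set (Hat K N)), x - y ∈ Lo K N n) : x ∈ All K U := fun n => by
  obtain ⟨y, hy, e⟩ := h (n + 1)
  have := e n (by omega)
  rw [co_sub, sub_eq_zero] at this
  exact this ▸ hy n

lemma eq_zero_of_contract {x : Hat K N} (h : ∀ n, x ∈ Lo K N n → x ∈ Lo K N (n + 1)) : x = 0 := by
  obtain ⟨L, hL⟩ := x.exists_Lo
  have : ∀ k : ℕ, x ∈ Lo K N (L + k) := fun k => by
    induction k with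
    | zero => simpa using hL
    | succ k ih => exact Lo_mono (by push_cast; omega) (h _ ih)
  exact eq_zero_of_Lo fun n => Lo_mono (by omega) (this (n - L).toNat)

end basic

section ring

variable {K A : Type*}

lemma bi_mul [Ring A] : Bi fun a b : A => a * b := ⟨add_mul, mul_add⟩

noncomputable instance [Ring A] : Ring (Hat K A) where
  __ := (inferInstance : AddCommGroup (Hat K A))
  mul := cv (fun a b => a * b) bi_mul
  one := single K 0 1
  left_distrib := cv_add_right _
  right_distrib := cv_add_left _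
  zero_mul x := by
    have := cv_add_left bi_mul (0 : Hat K A) 0 x
    rw [add_zero] at this
    exact left_eq_add.mp this
  mul_zero x := by
    have := cv_add_right bi_mul x (0 : Hat K A) 0
    rw [add_zero] at this
    exact left_eq_add.mp this
  mul_assoc := cv_assoc _ _ _ _ mul_assoc
  one_mul x := by ext n; exact (co_cv_single_left _ _ _ _ _).trans (by simp)
  mul_one x := by ext n; exact (co_cv_single_right _ _ _ _ _).trans (by simp)

lemma mul_def [Ring A] (x y : Hat K A) : x * y = cv (fun a b => a * b) bi_mul x y := rfl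

lemma one_def [Ring A] : (1 : Hat K A) = single K 0 1 := rfl

noncomputable instance [CommRing A] : CommRing (Hat K A) where
  mul_comm x y := by
    rw [mul_def, mul_def, ← cv_flip]
    ext n
    exact cv_congr _ _ (fun i j => mul_comm _ _) n

variable [Ring A]

lemma single_mul (k l : ℤ) (a b : A) : single K k a * single K l b = single K (k + l) (a * b) :=
  cv_single _ _ _ _ _

lemma co_single_mul (k : ℤ) (a : A) (y : Hat K A) (n : ℤ) :
    (single K k a * y).co n = a * y.co (n - k) := co_cv_single_left _ _ _ _ _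

lemma co_mul_single (k : ℤ) (a : A) (y : Hat K A) (n : ℤ) :
    (y * single K k a).co n = y.co (n - k) * a := co_cv_single_right _ _ _ _ _

lemma mul_Lo {x y : Hat K A} {a b : ℤ} (hx : x ∈ Lo K A a) (hy : y ∈ Lo K A b) :
    x * y ∈ Lo K A (a + b) := cv_Lo _ hx hy

lemma one_Lo : (1 : Hat K A) ∈ Lo K A 0 := single_Lo _ _

lemma pow_Lo {x : Hat K A} {a : ℤ} (hx : x ∈ Lo K A a) (k : ℕ) : x ^ k ∈ Lo K A (k * a) := by
  induction k with
  | zero => simpa using one_Lo
  | succ k ih => rw [pow_succ]; exact Lo_mono (by push_cast; linarith) (mul_Lo ih hx)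

variable (K) in
/-- Constants. -/
noncomputable def C : A →+* Hat K A where
  __ := single K 0
  map_one' := rfl
  map_mul' a b := by simpa using (single_mul 0 0 a b).symm

lemma C_apply (a : A) : C K a = single K 0 a := rfl

noncomputable instance instAlgebraCo {R : Type*} [CommSemiring R] [Algebra R A] :
    Algebra R (Hat K A) where
  algebraMap := (C K).comp (algebraMap R A)
  commutes' r x := by
    ext n
    simp only [RingHom.comp_apply, C_apply, co_single_mul, co_mul_single, Algebra.commutes]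
  smul_def' r x := by
    ext n
    simp only [RingHom.comp_apply, C_apply, co_single_mul, co_smul, sub_zero, Algebra.smul_def]

lemma algebraMap_co {R : Type*} [CommSemiring R] [Algebra R A] (r : R) :
    algebraMap R (Hat K A) r = C K (algebraMap R A r) := rfl

/-- A ring homomorphism applied to the coefficients. -/
noncomputable def mapR {K' B : Type*} [Ring B] (f : A →+* B) : Hat K A →+* Hat K' B where
  toFun x := ⟨fun n => f (x.co n), x.bdd.imp fun _ h n hn => by simp [h n hn]⟩
  map_zero' := by ext; simp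
  map_add' x y := by ext; simp
  map_one' := by ext n; simp [one_def, co_single, apply_ite f]
  map_mul' x y := by
    ext n
    exact (map_co_cv f bi_mul x y n).trans (cv_congr _ _ (fun i j => map_mul f _ _) n)

@[simp] lemma co_mapR {K' B : Type*} [Ring B] (f : A →+* B) (x : Hat K A) (n : ℤ) :
    (mapR (K' := K') f x).co n = f (x.co n) := rfl

@[simp] lemma mapR_single {K' B : Type*} [Ring B] (f : A →+* B) (k : ℤ) (a : A) :
    mapR (K' := K') f (single K k a) = single K' k (f a) := by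
  ext n; simp [co_single, apply_ite f]

/-- The series `1 + O(ε)` are invertible, inside every coefficientwise subring. -/
theorem exists_inv {x : Hat K A} (hx : x - 1 ∈ Lo K A 1) (U : Subring A)
    (hU : x ∈ All K U.toAddSubgroup) :
    ∃ y, x * y = 1 ∧ y * x = 1 ∧ y - 1 ∈ Lo K A 1 ∧ y ∈ All K U.toAddSubgroup := by
  have hx' : 1 - x ∈ Lo K A 1 := by simpa using neg_mem hx
  have h1 : (1 : Hat K A) ∈ All K U.toAddSubgroup := single_All _ U.one_mem
  obtain ⟨y, e1, e2, e3⟩ := exists_fix (Φ := fun y => 1 + (1 - x) * y) (x0 := 1) (L := 1)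
    (U := All K U.toAddSubgroup) (fun n a b h => by
      rw [add_sub_add_left_eq_sub, ← mul_sub, add_comm]; exact mul_Lo hx' h)
    (by simpa using hx') h1 fun y hy => add_mem h1 fun n =>
      cv_mem _ fun i => U.mul_mem (sub_mem h1 hU i) (mem_All.mp hy _)
  have e : x * y = 1 := by
    rw [sub_mul, one_mul] at e1
    linear_combination (norm := abel) -e1
  refine ⟨y, e, sub_eq_zero.mp (eq_zero_of_contract fun n hn => ?_), e2, All_of_approx e3⟩
  have : y * x - 1 = (1 - x) * (y * x - 1) := by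
    rw [sub_mul, mul_sub x, ← mul_assoc, e]; simp
  rw [this, add_comm]
  exact mul_Lo hx' hn

/-- Power series as Laurent series. -/
noncomputable def ofPS (K : Type*) : PowerSeries A →+* Hat K A where
  toFun f := ⟨fun n => if 0 ≤ n then PowerSeries.coeff n.toNat f else 0, 0,
    fun n hn => if_neg (by omega)⟩
  map_zero' := by ext; simp
  map_add' x y := by ext n; by_cases h : 0 ≤ n <;> simp [h]
  map_one' := by
    ext n
    simp only [one_def, co_single, PowerSeries.coeff_one]
    split_ifs <;> first | rfl | omega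
  map_mul' x y := by
    ext n
    rw [mul_def, co_cv (A := 0) (B := 0) _ (fun n hn => if_neg (by omega))
      fun n hn => if_neg (by omega)]
    by_cases h : 0 ≤ n
    · obtain ⟨m, rfl⟩ := Int.eq_ofNat_of_zero_le h
      simp only [h, if_true, Int.toNat_natCast, PowerSeries.coeff_mul, sub_zero]
      refine sum_nbij' (fun z => (z.1 : ℤ)) (fun i => (i.toNat, m - i.toNat)) ?_ ?_ ?_ ?_ ?_
      · rintro ⟨i, j⟩; simp only [mem_antidiagonal, mem_Icc]; omega
      · intro i; simp only [mem_antidiagonal, mem_Icc]; omega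
      · rintro ⟨i, j⟩ hij
        obtain rfl := mem_antidiagonal.mp hij
        simp
      · intro i; simp only [mem_Icc]; omega
      · rintro ⟨i, j⟩ hij
        obtain rfl := mem_antidiagonal.mp hij
        simp
    · simp only [h, if_false]
      rw [Icc_eq_empty (by omega), sum_empty]

@[simp] lemma co_ofPS (f : PowerSeries A) (m : ℕ) : (ofPS K f).co m = PowerSeries.coeff m f := by
  simp [ofPS]

lemma ofPS_Lo (f : PowerSeries A) : ofPS K f ∈ Lo K A 0 := fun n hn => if_neg (by omega)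

lemma ext_nat {N : Type*} [AddCommGroup N] {x y : Hat K N} (hx : x ∈ Lo K N 0) (hy : y ∈ Lo K N 0)
    (h : ∀ m : ℕ, x.co m = y.co m) : x = y := by
  ext n
  rcases lt_or_ge n 0 with hn | hn
  · rw [hx n hn, hy n hn]
  · obtain ⟨m, rfl⟩ := Int.eq_ofNat_of_zero_le hn; exact h m

@[simp] lemma ofPS_C (a : A) : ofPS K (PowerSeries.C a) = C K a :=
  ext_nat (ofPS_Lo _) (single_Lo _ _) fun m => by
    simp [PowerSeries.coeff_C, C_apply, co_single]

@[simp] lemma ofPS_X : ofPS K (PowerSeries.X : PowerSeries A) = single K 1 1 :=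
  ext_nat (ofPS_Lo _) (Lo_mono zero_le_one (single_Lo _ _)) fun m => by
    simp only [co_ofPS, PowerSeries.coeff_X, co_single]
    split_ifs <;> first | rfl | omega

theorem isField {k : Type*} [Field k] : IsField (Hat K k) where
  exists_pair_ne := ⟨0, 1, fun h => by simpa [one_def] using congrArg (·.co 0) h⟩
  mul_comm := mul_comm
  mul_inv_cancel := by
    intro x hx
    obtain ⟨L, hL⟩ := x.bdd
    obtain ⟨m, h1, h2⟩ := Int.exists_least_of_bdd (P := fun n => x.co n ≠ 0)
      ⟨L, fun n hn => not_lt.mp fun h => hn (hL n h)⟩ (by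
        by_contra! h; exact hx (Hat.ext (funext h)))
    obtain ⟨y, e, -⟩ := exists_inv (x := x * single K (-m) (x.co m)⁻¹) (fun n hn => by
      rw [co_sub, co_mul_single, one_def, co_single]
      split_ifs with h
      · simp [h, h1]
      · have : x.co (n - -m) = 0 := by_contra fun h0 => by have := h2 _ h0; omega
        rw [this]; simp) ⊤ fun _ => trivial
    exact ⟨_, by rw [← e, mul_assoc]⟩

noncomputable instance {k : Type*} [Field k] : Field (Hat K k) := isField.toField

end ring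

section module

variable {K M N P : Type*} [CommRing K] [AddCommGroup M] [AddCommGroup N] [AddCommGroup P]
  [Module K M] [Module K N] [Module K P]

lemma bi_smul : Bi fun (a : K) (b : N) => a • b := ⟨add_smul, smul_add⟩

noncomputable instance instModuleHat : Module (Hat K K) (Hat K N) where
  smul := cv (fun a b => a • b) bi_smul
  one_smul x := by ext n; exact (co_cv_single_left _ _ _ _ _).trans (by simp)
  mul_smul := cv_assoc _ _ _ _ mul_smul
  smul_add := cv_add_right _
  add_smul := cv_add_left _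
  zero_smul x := by
    have := cv_add_left bi_smul (0 : Hat K K) 0 x
    rw [add_zero] at this
    exact left_eq_add.mp this
  smul_zero x := by
    have := cv_add_right bi_smul x (0 : Hat K N) 0
    rw [add_zero] at this
    exact left_eq_add.mp this

example : (instModuleHat : Module (Hat K K) (Hat K K)) = Semiring.toModule := by
  with_reducible_and_instances rfl

lemma smul_def (c : Hat K K) (x : Hat K N) : c • x = cv (fun a b => a • b) bi_smul c x := rfl

lemma co_single_smul (k : ℤ) (a : K) (y : Hat K N) (n : ℤ) :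
    (single K k a • y).co n = a • y.co (n - k) := co_cv_single_left _ _ _ _ _

lemma co_smul_single (k : ℤ) (c : Hat K K) (v : N) (n : ℤ) :
    (c • single K k v).co n = c.co (n - k) • v := co_cv_single_right _ _ _ _ _

lemma smul_Lo {c : Hat K K} {x : Hat K N} {a b : ℤ} (hc : c ∈ Lo K K a) (hx : x ∈ Lo K N b) :
    c • x ∈ Lo K N (a + b) := cv_Lo _ hc hx

@[simp] lemma C_smul (a : K) (y : Hat K N) : C K a • y = a • y := by
  ext n; simp [C_apply, co_single_smul]

instance {R : Type*} [CommSemiring R] [Algebra R K] [Module R N] [IsScalarTower R K N] :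
    IsScalarTower R (Hat K K) (Hat K N) := ⟨fun r c x => by
  rw [Algebra.smul_def, mul_smul, algebraMap_co, C_smul]
  ext n; simp⟩

instance {R : Type*} [CommSemiring R] [Algebra R K] [Module R N] [IsScalarTower R K N] :
    SMulCommClass R (Hat K K) (Hat K N) := IsScalarTower.to_smulCommClass

lemma bi_lin (β : M →ₗ[K] N →ₗ[K] P) : Bi fun a b => β a b :=
  ⟨fun _ _ _ => by simp, fun _ _ _ => by simp⟩

/-- The extension of a bilinear map. -/
noncomputable def hat2 (β : M →ₗ[K] N →ₗ[K] P) :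
    Hat K M →ₗ[Hat K K] Hat K N →ₗ[Hat K K] Hat K P :=
  LinearMap.mk₂ (Hat K K) (cv (fun a b => β a b) (bi_lin β)) (cv_add_left _)
    (fun c x y => cv_assoc _ bi_smul bi_smul _ (fun _ _ _ => by simp) c x y) (cv_add_right _)
    fun c x y => by
      rw [← cv_flip, smul_def, smul_def, ← cv_flip (bi_lin β) x y]
      exact cv_assoc _ bi_smul bi_smul _ (fun _ _ _ => by simp) c y x

lemma hat2_def (β : M →ₗ[K] N →ₗ[K] P) (x : Hat K M) (y : Hat K N) :
    hat2 β x y = cv (fun a b => β a b) (bi_lin β) x y := rfl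

/-- A linear map applied to the coefficients. -/
noncomputable def map (f : M →ₗ[K] N) : Hat K M →ₗ[Hat K K] Hat K N where
  toFun x := ⟨fun n => f (x.co n), x.bdd.imp fun _ h n hn => by simp [h n hn]⟩
  map_add' x y := by ext; simp
  map_smul' c x := by
    ext n
    exact (map_co_cv f bi_smul c x n).trans (cv_congr _ _ (fun i j => map_smul f _ _) n)

@[simp] lemma co_map (f : M →ₗ[K] N) (x : Hat K M) (n : ℤ) : (map f x).co n = f (x.co n) := rfl

@[simp] lemma map_single (f : M →ₗ[K] N) (k : ℤ) (a : M) :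
    map f (single K k a) = single K k (f a) := by
  ext n; simp [co_single, apply_ite f]

lemma map_Lo (f : M →ₗ[K] N) {x : Hat K M} {a : ℤ} (hx : x ∈ Lo K M a) : map f x ∈ Lo K N a :=
  fun n hn => by simp [hx n hn]

lemma hat2_Lo (β : M →ₗ[K] N →ₗ[K] P) {x : Hat K M} {y : Hat K N} {a b : ℤ} (hx : x ∈ Lo K M a)
    (hy : y ∈ Lo K N b) : hat2 β x y ∈ Lo K P (a + b) := cv_Lo (bi_lin β) hx hy

lemma hat2_All (β : M →ₗ[K] N →ₗ[K] P) {x : Hat K M} {y : Hat K N} {U : AddSubgroup M}
    {U' : AddSubgroup N} {U'' : AddSubgroup P} (h : ∀ a ∈ U, ∀ b ∈ U', β a b ∈ U'')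
    (hx : x ∈ All K U) (hy : y ∈ All K U') : hat2 β x y ∈ All K U'' :=
  fun _ => cv_mem (bi_lin β) fun _ => h _ (hx _) _ (hy _)

lemma co_hat2_single_left (β : M →ₗ[K] N →ₗ[K] P) (k : ℤ) (a : M) (y : Hat K N) (n : ℤ) :
    (hat2 β (single K k a) y).co n = β a (y.co (n - k)) :=
  co_cv_single_left (bi_lin β) _ _ _ _

lemma co_hat2_single_right (β : M →ₗ[K] N →ₗ[K] P) (k : ℤ) (x : Hat K M) (b : N) (n : ℤ) :
    (hat2 β x (single K k b)).co n = β (x.co (n - k)) b :=
  co_cv_single_right (bi_lin β) _ _ _ _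

@[simp] lemma hat2_single (β : M →ₗ[K] N →ₗ[K] P) (k l : ℤ) (a : M) (b : N) :
    hat2 β (single K k a) (single K l b) = single K (k + l) (β a b) :=
  cv_single (bi_lin β) _ _ _ _

lemma hat2_cst_left (β : M →ₗ[K] N →ₗ[K] P) (a : M) (y : Hat K N) :
    hat2 β (single K 0 a) y = map (β a) y := by ext n; simp [co_hat2_single_left]

lemma hat2_cst_right (β : M →ₗ[K] N →ₗ[K] P) (x : Hat K M) (b : N) :
    hat2 β x (single K 0 b) = map (β.flip b) x := by ext n; simp [co_hat2_single_right]

/-- An identity between bilinear expressions in the coefficients extends to series. -/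
lemma hat2_congr {M' N' : Type*} [AddCommGroup M'] [AddCommGroup N'] [Module K M'] [Module K N']
    {β : M →ₗ[K] N →ₗ[K] P} {β' : M' →ₗ[K] N' →ₗ[K] P} {x : Hat K M} {y : Hat K N} {x' : Hat K M'}
    {y' : Hat K N'} (H : ∀ i j, β (x.co i) (y.co j) = β' (x'.co i) (y'.co j)) :
    hat2 β x y = hat2 β' x' y' := Hat.ext (funext (cv_congr (bi_lin β) (bi_lin β') H))

lemma hat2_flip (β : M →ₗ[K] N →ₗ[K] P) (x : Hat K M) (y : Hat K N) :
    hat2 β.flip y x = hat2 β x y := cv_flip (bi_lin β) x y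

lemma map_hat2 {P' : Type*} [AddCommGroup P'] [Module K P'] (f : P →ₗ[K] P')
    (β : M →ₗ[K] N →ₗ[K] P) (x : Hat K M) (y : Hat K N) :
    map f (hat2 β x y) = hat2 (β.compr₂ f) x y := Hat.ext (funext (map_co_cv f (bi_lin β) x y))

lemma hat2_add (β β' : M →ₗ[K] N →ₗ[K] P) (x : Hat K M) (y : Hat K N) :
    hat2 (β + β') x y = hat2 β x y + hat2 β' x y := by
  obtain ⟨A, hA⟩ := x.exists_Lo
  obtain ⟨B, hB⟩ := y.exists_Lo
  ext n
  simp only [hat2_def, co_add, co_cv _ hA hB, LinearMap.add_apply, sum_add_distrib]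

lemma hat2_neg (β : M →ₗ[K] N →ₗ[K] P) (x : Hat K M) (y : Hat K N) :
    hat2 (-β) x y = -hat2 β x y := by
  obtain ⟨A, hA⟩ := x.exists_Lo
  obtain ⟨B, hB⟩ := y.exists_Lo
  ext n
  simp only [hat2_def, co_neg, co_cv _ hA hB, LinearMap.neg_apply, sum_neg_distrib]

lemma hat2_sub (β β' : M →ₗ[K] N →ₗ[K] P) (x : Hat K M) (y : Hat K N) :
    hat2 (β - β') x y = hat2 β x y - hat2 β' x y := by
  rw [sub_eq_add_neg, hat2_add, hat2_neg, sub_eq_add_neg]

lemma hat2_eq_zero {β : M →ₗ[K] N →ₗ[K] P} {x : Hat K M} {y : Hat K N}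
    (H : ∀ i j, β (x.co i) (y.co j) = 0) : hat2 β x y = 0 := by
  ext n
  exact (finsum_congr fun i => H i _).trans finsum_zero

lemma hat2_assoc {M' Q Q' : Type*} [AddCommGroup M'] [AddCommGroup Q] [AddCommGroup Q']
    [Module K M'] [Module K Q] [Module K Q'] {β1 : Q →ₗ[K] M' →ₗ[K] P} {β2 : M →ₗ[K] N →ₗ[K] Q}
    {β3 : M →ₗ[K] Q' →ₗ[K] P} {β4 : N →ₗ[K] M' →ₗ[K] Q'}
    (H : ∀ a b c, β1 (β2 a b) c = β3 a (β4 b c)) (x : Hat K M) (y : Hat K N) (w : Hat K M') :
    hat2 β1 (hat2 β2 x y) w = hat2 β3 x (hat2 β4 y w) :=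
  cv_assoc (bi_lin β1) (bi_lin β2) (bi_lin β3) (bi_lin β4) H x y w

lemma smul_eq_hat2 (c : Hat K K) (x : Hat K N) : c • x = hat2 (LinearMap.lsmul K N) c x := rfl

variable {A : Type*} [Ring A] [Algebra K A]

lemma mul_eq_hat2 (x y : Hat K A) : x * y = hat2 (LinearMap.mul K A) x y := rfl

noncomputable instance instAlgebraHat : Algebra (Hat K K) (Hat K A) :=
  Algebra.ofModule (fun c x y => by simp [mul_eq_hat2]) fun c x y => by simp [mul_eq_hat2]

lemma algebraMap_hat (c : Hat K K) : algebraMap (Hat K K) (Hat K A) c = mapR (algebraMap K A) c := by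
  ext n
  rw [Algebra.algebraMap_eq_smul_one, one_def, co_smul_single, sub_zero, co_mapR,
    Algebra.algebraMap_eq_smul_one]

/-- An algebra homomorphism applied to the coefficients. -/
noncomputable def mapA {B : Type*} [Ring B] [Algebra K B] (f : A →ₐ[K] B) :
    Hat K A →ₐ[Hat K K] Hat K B :=
  AlgHom.ofLinearMap (map f.toLinearMap) (map_one (mapR (K' := K) f.toRingHom))
    (map_mul (mapR (K' := K) f.toRingHom))

@[simp] lemma co_mapA {B : Type*} [Ring B] [Algebra K B] (f : A →ₐ[K] B) (x : Hat K A) (n : ℤ) :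
    (mapA f x).co n = f (x.co n) := rfl

variable (K N) in
/-- Series of operators act on series. -/
noncomputable def act : Hat K (Module.End K N) →ₐ[Hat K K] Module.End (Hat K K) (Hat K N) :=
  AlgHom.ofLinearMap (hat2 LinearMap.id)
    (by ext x n; simp [one_def, co_hat2_single_left])
    fun X Y => LinearMap.ext fun x => hat2_assoc (β1 := LinearMap.id)
      (β2 := LinearMap.mul K (Module.End K N)) (β3 := LinearMap.id) (β4 := LinearMap.id)
      (fun _ _ _ => rfl) X Y x

lemma act_apply (X : Hat K (Module.End K N)) (x : Hat K N) :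
    act K N X x = hat2 LinearMap.id X x := rfl

lemma act_C (X : Module.End K N) (x : Hat K N) : act K N (C K X) x = map X x := hat2_cst_left _ _ _

lemma co_act_single (X : Hat K (Module.End K N)) (v : N) (n : ℤ) :
    (act K N X (single K 0 v)).co n = X.co n v := by simp [act_apply, co_hat2_single_right]

lemma act_injective : Function.Injective (act K N) := fun X Y h => by
  ext n v
  rw [← co_act_single, ← co_act_single, h]

variable (K N) in
/-- The Euler operator `ε ∂_ε`. -/
noncomputable def th : Hat K N →ₗ[K] Hat K N where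
  toFun x := ⟨fun n => (n : K) • x.co n, x.bdd.imp fun _ h n hn => by simp [h n hn]⟩
  map_add' x y := by ext; simp
  map_smul' c x := by ext n; simp [smul_comm c]

@[simp] lemma co_th (x : Hat K N) (n : ℤ) : (th K N x).co n = (n : K) • x.co n := rfl

lemma th_hat2 (β : M →ₗ[K] N →ₗ[K] P) (x : Hat K M) (y : Hat K N) :
    th K P (hat2 β x y) = hat2 β (th K M x) y + hat2 β x (th K N y) := by
  obtain ⟨A, hA⟩ := x.exists_Lo
  obtain ⟨B, hB⟩ := y.exists_Lo
  have hA' : th K M x ∈ Lo K M A := fun n hn => by simp [hA n hn]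
  have hB' : th K N y ∈ Lo K N B := fun n hn => by simp [hB n hn]
  ext n
  simp only [hat2_def, co_add, co_th, co_cv _ hA hB, co_cv _ hA' hB, co_cv _ hA hB', smul_sum,
    ← sum_add_distrib, map_smul, LinearMap.smul_apply, ← add_smul]
  exact sum_congr rfl fun i _ => by push_cast; ring_nf

lemma th_mul (x y : Hat K A) : th K A (x * y) = th K A x * y + x * th K A y :=
  th_hat2 (LinearMap.mul K A) x y

@[simp] lemma th_cst (v : N) : th K N (single K 0 v) = 0 := by
  ext n; by_cases h : n = 0 <;> simp [co_single, h]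

lemma th_map (f : M →ₗ[K] N) (x : Hat K M) : th K N (map f x) = map f (th K M x) := by ext; simp

variable [Algebra ℚ K]

lemma smul_eq_zero_of_ne {n : ℤ} (hn : n ≠ 0) {v : N} (h : (n : K) • v = 0) : v = 0 := by
  have hu : IsUnit (n : K) := by
    simpa using (IsUnit.mk0 (n : ℚ) (by exact_mod_cast hn)).map (algebraMap ℚ K)
  exact hu.smul_eq_zero.mp h

/-- Uniqueness for regular singular equations. -/
theorem ode_unique {x : Hat K N} (h0 : x ∈ Lo K N 1)
    (h : ∀ n, x ∈ Lo K N n → th K N x ∈ Lo K N (n + 1)) : x = 0 :=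
  eq_zero_of_contract fun n hn m hm => by
    rcases lt_or_ge m 1 with h1 | h1
    · exact h0 m h1
    · rcases lt_or_ge m n with h2 | h2
      · exact hn m h2
      · exact smul_eq_zero_of_ne (K := K) (by omega) (h n hn m hm)

/-- Existence for regular singular equations. -/
theorem ode_exists {T : Hat K N →+ Hat K N} (hT : ∀ n, ∀ x ∈ Lo K N n, T x ∈ Lo K N (n + 1))
    (v : N) {U : AddSubgroup N} (hU : ∀ q : ℚ, ∀ w ∈ U, algebraMap ℚ K q • w ∈ U) (hv : v ∈ U)
    (hTU : ∀ x ∈ All K U, T x ∈ All K U) :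
    ∃ x, th K N x = T x ∧ x - single K 0 v ∈ Lo K N 1 ∧ x ∈ All K U := by
  let I : Hat K N →+ Hat K N :=
    { toFun := fun x => ⟨fun n => algebraMap ℚ K (n : ℚ)⁻¹ • x.co n,
        x.bdd.imp fun _ h n hn => by simp [h n hn]⟩
      map_zero' := by ext; simp
      map_add' := fun x y => by ext; simp }
  have hI : ∀ x n, (I x).co n = algebraMap ℚ K (n : ℚ)⁻¹ • x.co n := fun _ _ => rfl
  have hIL : ∀ n, ∀ x ∈ Lo K N n, I x ∈ Lo K N n := fun n x hx m hm => by simp [hI, hx m hm]
  obtain ⟨x, e1, e2, e3⟩ := exists_fix (Φ := fun x => single K 0 v + I (T x)) (x0 := single K 0 v)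
    (L := 1) (U := All K U) (fun n a b h => by
      rw [add_sub_add_left_eq_sub, ← map_sub, ← map_sub]; exact hIL _ _ (hT _ _ h))
    (by simpa using hIL _ _ (hT 0 _ (single_Lo 0 v))) (single_All _ hv)
    fun x hx => add_mem (single_All _ hv) fun n => hU _ _ (hTU x hx n)
  refine ⟨x, ?_, e2, All_of_approx e3⟩
  have hx : x ∈ Lo K N 0 := by
    simpa using add_mem (Lo_mono zero_le_one e2) (single_Lo (K := K) 0 v)
  conv_lhs => rw [← e1]
  ext n
  rw [map_add, th_cst, zero_add, co_th, hI, smul_smul]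
  by_cases hn : n = 0
  · subst hn; simp [hT 0 x hx 0 (by omega)]
  · rw [← map_intCast (algebraMap ℚ K), ← map_mul, mul_inv_cancel₀ (by exact_mod_cast hn)]; simp

end module

end Hat

end Vale.Agent.P269.Fock
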