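import Vale.Agent.P269.Fock.Split
import Mathlib.RingTheory.TensorProduct.IsBaseChangePi
import Mathlib.LinearAlgebra.BilinearForm.TensorProduct

/-! Change of the ground ring; product frames and twisted frames. -/

namespace Vale.Agent.P269.Fock

open Finset TensorProduct

section semi

variable {K K' : Type*} [CommRing K] [CommRing K'] {φ : K →+* K'} {V V' : Type*} [AddCommGroup V]
  [Module K V] [AddCommGroup V'] [Module K' V'] {p : Par K V} {p' : Par K' V'}

/-- Even semilinear maps. -/
def IsEvS (p : Par K V) (p' : Par K' V') (j : V →ₛₗ[φ] V') : Prop := ∀ v, p'.σ (j v) = j (p.σ v)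

variable (j : V →ₛₗ[φ] V') (hj : IsEvS p p' j)

include hj in
theorem exists_bcS : ∃ f : S p →+* S p', (∀ v, f (ι p v) = ι p' (j v)) ∧
    ∀ c, f (algebraMap K _ c) = algebraMap K' _ (φ c) := by
  letI : Algebra K (S p') :=
    ((algebraMap K' (S p')).comp φ).toAlgebra' fun c x => Algebra.commutes (φ c) x
  let g : V →ₗ[K] S p' :=
    { toFun := fun v => ι p' (j v)
      map_add' := fun v w => by simp
      map_smul' := fun c v => by
        rw [map_smulₛₗ, map_smul, Algebra.smul_def]; rfl }
  have hg : SC p g := ⟨fun v w h => (sc_ι p').ev _ _ (by rw [hj, h]), fun v w hv hw =>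
    (sc_ι p').od _ _ (by rw [hj, hv, map_neg]) (by rw [hj, hw, map_neg])⟩
  exact ⟨(lift g hg).toRingHom, fun v => lift_ι g hg v, fun c => (lift g hg).commutes c⟩

/-- The semilinear ring homomorphism induced by `j`. -/
noncomputable def bcS : S p →+* S p' := Classical.choose (exists_bcS j hj)

variable {j hj}

@[simp] lemma bcS_ι (v : V) : bcS j hj (ι p v) = ι p' (j v) :=
  (Classical.choose_spec (exists_bcS j hj)).1 v

lemma bcS_algebraMap (c : K) : bcS j hj (algebraMap K _ c) = algebraMap K' _ (φ c) :=
  (Classical.choose_spec (exists_bcS j hj)).2 c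

@[simp] lemma bcS_smul (c : K) (x : S p) : bcS j hj (c • x) = φ c • bcS j hj x := by
  rw [Algebra.smul_def, map_mul, bcS_algebraMap, Algebra.smul_def]

lemma par_bcS (x : S p) : par p' (bcS j hj x) = bcS j hj (par p x) := by
  induction x using induction with
  | h1 => simp
  | hι v x hx => simp [hx, hj v]
  | hadd x y hx hy => simp [hx, hy]
  | hsmul c x hx => simp [hx]

lemma aug_bcS (x : S p) : aug p' (bcS j hj x) = φ (aug p x) := by
  induction x using induction with
  | h1 => simp
  | hι v x hx => simp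
  | hadd x y hx hy => simp [hx, hy]
  | hsmul c x hx => simp [hx]

lemma bcS_induction (hs : Submodule.span K' (Set.range j) = ⊤) {P : S p' → Prop}
    (h : ∀ x, P (bcS j hj x)) (hadd : ∀ x y, P x → P y → P (x + y))
    (hsmul : ∀ (c : K') x, P x → P (c • x)) (y : S p') : P y := by
  have key : y ∈ Submodule.span K' (Set.range (bcS j hj)) := by
    induction y using induction with
    | h1 => exact Submodule.subset_span ⟨1, map_one _⟩
    | hι v x hx =>
      have hv : v ∈ Submodule.span K' (Set.range j) := hs ▸ Submodule.mem_top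
      induction hv using Submodule.span_induction with
      | mem v hv =>
        obtain ⟨v, rfl⟩ := hv
        induction hx using Submodule.span_induction with
        | mem x hx =>
          obtain ⟨x, rfl⟩ := hx
          exact Submodule.subset_span ⟨ι p v * x, by simp⟩
        | zero => simp
        | add x y _ _ hx hy => rw [mul_add]; exact add_mem hx hy
        | smul c x _ hx => rw [mul_smul_comm]; exact Submodule.smul_mem _ _ hx
      | zero => simp
      | add v w _ _ hv hw => rw [map_add, add_mul]; exact add_mem hv hw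
      | smul c v _ hv => rw [map_smul, smul_mul_assoc]; exact Submodule.smul_mem _ _ hv
    | hadd x y hx hy => exact add_mem hx hy
    | hsmul c x hx => exact Submodule.smul_mem _ _ hx
  induction key using Submodule.span_induction with
  | mem x hx => obtain ⟨x, rfl⟩ := hx; exact h x
  | zero => simpa using h 0
  | add x y _ _ hx hy => exact hadd _ _ hx hy
  | smul c x _ hx => exact hsmul _ _ hx

lemma bcS_ext (hs : Submodule.span K' (Set.range j) = ⊤) {M : Type*} [AddCommGroup M]
    [Module K' M] {Z Z' : S p' →ₗ[K'] M} (h : ∀ x, Z (bcS j hj x) = Z' (bcS j hj x)) : Z = Z' :=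
  LinearMap.ext fun y => bcS_induction (P := fun y => Z y = Z' y) hs h
    (fun x y hx hy => by rw [map_add, map_add, hx, hy])
    (fun c x hx => by rw [map_smul, map_smul, hx]) y

variable [Algebra ℚ K] [Algebra ℚ K']

lemma map_hf (φ : K →+* K') : φ (hf K) = hf K' := by
  have h : φ (hf K) + φ (hf K) = 1 := by rw [← map_add, hf_add, map_one]
  linear_combination hf K' * h - φ (hf K) * hf_add K'

lemma dv_bcS {a : Module.End K V} {a' : Module.End K' V'} (ha : IsEv p p a) (ha' : IsEv p' p' a')
    (h : ∀ v, a' (j v) = j (a v)) (x : S p) : dv p' a' (bcS j hj x) = bcS j hj (dv p a x) := by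
  induction x using induction with
  | h1 => simp
  | hι v x hx => simp [dv_ι_mul ha, dv_ι_mul ha', hx, h]
  | hadd x y hx hy => simp [hx, hy]
  | hsmul c x hx => simp [hx]

lemma con_bcS {u : K'} {ψ : Module.Dual K V} {ψ' : Module.Dual K' V'}
    (h : ∀ v, ψ' (j v) = u * φ (ψ v)) (x : S p) :
    con p' ψ' (bcS j hj x) = u • bcS j hj (con p ψ x) := by
  induction x using induction' generalizing ψ ψ' with
  | h1 => simp
  | hev v x hv hx =>
    rw [map_mul, bcS_ι, con_ι_mul_ev _ hv, con_ι_mul_ev _ (by rw [hj, hv]), hx h, h]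
    simp [mul_smul]
  | hod v x hv hx =>
    rw [map_mul, bcS_ι, con_ι_mul_od _ hv, con_ι_mul_od _ (by rw [hj, hv, map_neg]),
      hx (ψ := ψ ∘ₗ p.σ) (fun v => by simp [hj v, h]), h]
    simp [mul_smul]
  | hadd x y hx hy => simp [hx h, hy h]
  | hsmul c x hx => simp [hx h, smul_comm u]

lemma con2_bcS {u : K'} {W : SymB p} {W' : SymB p'}
    (h : ∀ v w, W'.1 (j v) (j w) = u * φ (W.1 v w)) (x : S p) :
    con2 p' W' (bcS j hj x) = u • bcS j hj (con2 p W x) := by
  induction x using induction with
  | h1 => simp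
  | hι v x hx => simp [con2_ι_mul, hx, con_bcS (h v)]
  | hadd x y hx hy => simp [hx, hy]
  | hsmul c x hx => simp [hx, smul_comm u]

lemma Q0_bcS {a : Module.End K V} {a' : Module.End K' V'} (ha : IsEv p p a) (ha' : IsEv p' p' a')
    (h : ∀ v, a' (j v) = j (a v)) (d : V) (x : S p) :
    Q0 p' (j d) a' (bcS j hj x) = bcS j hj (Q0 p d a x) := by
  simp [Q0_apply, dv_bcS ha ha' h, h]

lemma Qm_bcS {u : K'} {W : SymB p} {W' : SymB p'}
    (h : ∀ v w, W'.1 (j v) (j w) = u * φ (W.1 v w)) (d : V) (x : S p) :
    Qm p' (j d) W' (bcS j hj x) = u • bcS j hj (Qm p d W x) := by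
  simp [Qm_apply, con2_bcS h, con_bcS (h d), smul_sub]

omit [Algebra ℚ K] [Algebra ℚ K'] in
@[elab_as_elim]
lemma span_ind (hs : Submodule.span K' (Set.range j) = ⊤) {P : V' → Prop} (a : ∀ v, P (j v))
    (b : ∀ x y, P x → P y → P (x + y)) (c : ∀ (c : K') x, P x → P (c • x)) (v : V') : P v := by
  have hv : v ∈ Submodule.span K' (Set.range j) := hs ▸ Submodule.mem_top
  induction hv using Submodule.span_induction with
  | mem v hv => obtain ⟨v, rfl⟩ := hv; exact a v
  | zero => simpa using a 0
  | add v w _ _ hv hw => exact b _ _ hv hw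
  | smul k v _ hv => exact c _ _ hv

lemma SC.of_span (hj : IsEvS p p' j) (hs : Submodule.span K' (Set.range j) = ⊤)
    {A : Type*} [Ring A] [Algebra K' A] {f : V' →ₗ[K'] A}
    (h1 : ∀ v w, p.σ w = w → f (j w) * f (j v) = f (j v) * f (j w))
    (h2 : ∀ v w, p.σ v = -v → p.σ w = -w → f (j v) * f (j w) = -(f (j w) * f (j v))) :
    SC p' f := by
  have hev : ∀ v, p'.ev (j v) = j (p.ev v) := fun v => by
    simp [Par.ev_apply, hj v, map_hf]
  have hod : ∀ v, p'.od (j v) = j (p.od v) := fun v => by
    simp [Par.od_apply, hj v, map_hf]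
  constructor
  · intro v w hw
    rw [← Par.ev_of_ev hw]
    clear hw
    induction w using span_ind hs with
    | a w =>
      induction v using span_ind hs with
      | a v => rw [hev]; exact h1 _ _ (p.σ_ev w)
      | b x y hx hy => simp only [map_add, mul_add, add_mul, hx, hy]
      | c c x hx => simp only [map_smul, mul_smul_comm, smul_mul_assoc, hx]
    | b x y hx hy => simp only [map_add, mul_add, add_mul, hx, hy]
    | c c x hx => simp only [map_smul, mul_smul_comm, smul_mul_assoc, hx]
  · intro v w hv hw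
    rw [← Par.od_of_od hv, ← Par.od_of_od hw]
    clear hv hw
    induction w using span_ind hs with
    | a w =>
      induction v using span_ind hs with
      | a v => rw [hod, hod]; exact h2 _ _ (p.σ_od v) (p.σ_od w)
      | b x y hx hy => simp only [map_add, mul_add, add_mul, hx, hy, neg_add]
      | c c x hx => simp only [map_smul, mul_smul_comm, smul_mul_assoc, hx, smul_neg]
    | b x y hx hy => simp only [map_add, mul_add, add_mul, hx, hy, neg_add]
    | c c x hx => simp only [map_smul, mul_smul_comm, smul_mul_assoc, hx, smul_neg]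

end semi

section alg

variable {K : Type*} (K' : Type*) [CommRing K] [CommRing K'] [Algebra K K'] {V V' : Type*}
  [AddCommGroup V] [Module K V] [AddCommGroup V'] [Module K' V'] [Module K V']
  [IsScalarTower K K' V'] {p : Par K V} {p' : Par K' V'}

/-- A linear map as a semilinear map. -/
def sl (f : V →ₗ[K] V') : V →ₛₗ[algebraMap K K'] V' where
  toFun := f
  map_add' := f.map_add
  map_smul' c v := by simp

@[simp] lemma sl_apply (f : V →ₗ[K] V') (v : V) : sl K' f v = f v := rfl

variable {K'}

lemma span_sl {f : V →ₗ[K] V'} (hf : IsBaseChange K' f) :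
    Submodule.span K' (Set.range (sl K' f)) = ⊤ := by
  refine eq_top_iff.mpr fun v _ => ?_
  exact hf.inductionOn v _ (zero_mem _) (fun v => Submodule.subset_span ⟨v, rfl⟩)
    (fun c v hv => Submodule.smul_mem _ _ hv) fun v w => add_mem

/-- Extension of functionals along a base change. -/
theorem exists_ext [Algebra ℚ K] [Algebra ℚ K'] {f : V →ₗ[K] V'} (hf : IsBaseChange K' f)
    (hj : IsEvS p p' (sl K' f)) {M : Type*} [AddCommGroup M] [Module K M] [Module K' M]
    [IsScalarTower K K' M] (Z : S p →ₗ[K] M) :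
    ∃ Z' : S p' →ₗ[K'] M, ∀ x, Z' (bcS (sl K' f) hj x) = Z x := by
  let d : V →ₗ[K] Module.End K' ((S p →ₗ[K] M) →ₗ[K'] M) :=
    { toFun := fun v => LinearMap.lcomp K' M
        { toFun := fun g => g ∘ₗ ml p v
          map_add' := fun _ _ => rfl
          map_smul' := fun _ _ => rfl }
      map_add' := fun v w => by
        ext Φ g
        simp [LinearMap.comp_add]
      map_smul' := fun c v => by
        ext Φ g
        simp only [map_smul, LinearMap.comp_smul, LinearMap.lcomp_apply, LinearMap.coe_mk,
          AddHom.coe_mk, RingHom.id_apply, LinearMap.smul_apply]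
        rw [← algebraMap_smul K' c, map_smul, algebraMap_smul] }
  have hd : ∀ v Φ g, d v Φ g = Φ (g ∘ₗ ml p v) := fun _ _ _ => rfl
  have hsc : SC p' (hf.lift d) := by
    refine SC.of_span hj (span_sl hf) (fun v w hw => ?_) fun v w hv hw => ?_
    · ext Φ g
      simp only [sl_apply, hf.lift_eq, Module.End.mul_apply, hd]
      congr 1
      ext x
      simp only [LinearMap.comp_apply, ml_apply]
      rw [← mul_assoc, ← mul_assoc, (sc_ι p).ev v w hw]
    · ext Φ g
      simp only [sl_apply, hf.lift_eq, Module.End.mul_apply, hd, LinearMap.neg_apply]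
      rw [← map_neg]
      congr 1
      ext x
      simp only [LinearMap.comp_apply, ml_apply, LinearMap.neg_apply]
      rw [← mul_assoc, ← mul_assoc, (sc_ι p).od v w hv hw, neg_mul, map_neg]
  let ev : (S p →ₗ[K] M) →ₗ[K'] M :=
    { toFun := fun g => g 1, map_add' := fun _ _ => rfl, map_smul' := fun _ _ => rfl }
  refine ⟨LinearMap.applyₗ Z ∘ₗ orb hsc ev, fun x => ?_⟩
  simp only [LinearMap.comp_apply, LinearMap.applyₗ_apply_apply]
  induction x using induction generalizing Z with
  | h1 => simp [ev]
  | hι v x hx => simp [hf.lift_eq, hd, hx]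
  | hadd x y hx hy => simp [hx, hy]
  | hsmul c x hx => simp [hx]

end alg

section frames

variable {K : Type*} [CommRing K] {H : Type*} [AddCommGroup H] [Module K H] {p : Par K H}
  {ι : Type*} [Fintype ι]

/-- The parity on a power. -/
def Par.pi (p : Par K H) (α : Type*) : Par K (α → H) where
  σ := p.σ.compLeft α
  inv v := by ext a; simp [p.inv]

@[simp] lemma Par.pi_σ (p : Par K H) {α : Type*} (v : α → H) (a : α) :
    (p.pi α).σ v a = p.σ (v a) := rfl

lemma Par.pi_σ_single (p : Par K H) {α : Type*} [DecidableEq α] (a : α) (v : H) :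
    (p.pi α).σ (Pi.single a v) = Pi.single a (p.σ v) := by
  ext b; by_cases h : b = a
  · subst h; simp
  · simp [h]

/-- The frame of a disjoint union of copies. -/
noncomputable def Frame.pi (fr : Frame p ι) (α : Type*) [Fintype α] [DecidableEq α] :
    Frame (p.pi α) (α × ι) where
  η := ∑ i, fr.η.compl₁₂ (LinearMap.proj i) (LinearMap.proj i)
  sym := fun v w => by
    simp only [LinearMap.sum_apply, LinearMap.compl₁₂_apply, LinearMap.proj_apply, Par.pi_σ]
    exact sum_congr rfl fun i _ => fr.η_symm _ _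
  e x := Pi.single x.1 (fr.e x.2)
  f x := Pi.single x.1 (fr.f x.2)
  π x := fr.π x.2
  he x := by rw [Par.pi_σ_single, fr.he, Pi.single_smul]
  hf x := by rw [Par.pi_σ_single, fr.hf, Pi.single_smul]
  left v := by
    ext i
    simp only [LinearMap.sum_apply, LinearMap.compl₁₂_apply, LinearMap.proj_apply,
      Fintype.sum_prod_type, Finset.sum_apply, Pi.smul_apply]
    rw [sum_eq_single i (fun k _ hk => by simp [hk.symm]) (by simp)]
    conv_rhs => rw [← fr.left (v i)]
    refine sum_congr rfl fun a _ => ?_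
    rw [sum_eq_single i (fun k _ hk => by simp [hk]) (by simp)]
    simp
  one _ := fr.one
  hone := by ext; simp [fr.hone]

lemma Frame.pi_η (fr : Frame p ι) {α : Type*} [Fintype α] [DecidableEq α] (v w : α → H) :
    (fr.pi α).η v w = ∑ i, fr.η (v i) (w i) := by
  simp [Frame.pi, LinearMap.sum_apply]

/-- The frame for the pairing `η(b ·, ·)`. -/
noncomputable def Frame.tw (fr : Frame p ι) (b b' : Module.End K H) (hb' : IsEv p p b')
    (hs : ∀ v w, fr.η (b v) w = fr.η v (b w)) (hb : IsEv p p b) (h1 : ∀ v, b (b' v) = v) :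
    Frame p ι where
  η := fr.η ∘ₗ b
  sym := fun v w => by
    simp only [LinearMap.comp_apply]
    rw [hs, fr.η_symm, hb]
  e := fr.e
  f a := b' (fr.f a)
  π := fr.π
  he := fr.he
  hf a := by rw [hb', fr.hf, map_smul]
  left v := by simpa [h1] using fr.left v
  one := fr.one
  hone := fr.hone

variable (K' : Type*) [CommRing K'] [Algebra K K']

/-- Base change of a parity. -/
noncomputable def Par.bc (p : Par K H) : Par K' (K' ⊗[K] H) where
  σ := p.σ.baseChange K'
  inv v := by
    induction v with
    | zero => simp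
    | tmul a v => simp [p.inv]
    | add a b ha hb => simp [ha, hb]

@[simp] lemma Par.bc_σ (p : Par K H) (a : K') (v : H) : (p.bc K').σ (a ⊗ₜ v) = a ⊗ₜ p.σ v := rfl

lemma IsEv.bc {a : Module.End K H} (h : IsEv p p a) : IsEv (p.bc K') (p.bc K') (a.baseChange K') :=
  fun v => by
    induction v with
    | zero => simp
    | tmul c v => simp [h v]
    | add a b ha hb => simp [ha, hb]

/-- Base change of a frame. -/
noncomputable def Frame.bc (fr : Frame p ι) : Frame (p.bc K') ι where
  η := LinearMap.BilinForm.baseChange K' fr.η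
  sym := fun v w => by
    induction v with
    | zero => simp
    | add a b ha hb => simp [ha, hb]
    | tmul a v =>
      induction w with
      | zero => simp
      | add a b ha hb => simp [ha, hb]
      | tmul b w => simp [fr.η_symm v w, mul_comm]
  e a := 1 ⊗ₜ fr.e a
  f a := 1 ⊗ₜ fr.f a
  π := fr.π
  he a := by simp [fr.he, ← Int.cast_smul_eq_zsmul K', tmul_smul, ← algebraMap_smul K' ((-1 : K) ^ _)]
  hf a := by simp [fr.hf, ← Int.cast_smul_eq_zsmul K', tmul_smul, ← algebraMap_smul K' ((-1 : K) ^ _)]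
  left v := by
    induction v with
    | zero => simp
    | add a b ha hb => simp only [map_add, add_smul, sum_add_distrib, ha, hb]
    | tmul c v =>
      conv_rhs => rw [← fr.left v]
      simp [tmul_sum, smul_tmul']
  one := 1 ⊗ₜ fr.one
  hone := by simp [fr.hone]

@[simp] lemma Frame.bc_η (fr : Frame p ι) (a b : K') (v w : H) :
    (fr.bc K').η (a ⊗ₜ v) (b ⊗ₜ w) = fr.η v w • (a * b) := by simp [Frame.bc]

lemma Frame.bc_adj (fr : Frame p ι) {a b : Module.End K H} (h : ∀ v w, fr.η (a v) w = fr.η v (b w))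
    (v w : K' ⊗[K] H) :
    (fr.bc K').η (a.baseChange K' v) w = (fr.bc K').η v (b.baseChange K' w) := by
  induction v with
  | zero => simp
  | add a b ha hb => simp [ha, hb]
  | tmul a v =>
    induction w with
    | zero => simp
    | add a b ha hb => simp only [map_add, ha, hb]
    | tmul b w => simp [h]

end frames

section compat

variable {K K' : Type*} [CommRing K] [CommRing K'] {φ : K →+* K'} {H H' : Type*} [AddCommGroup H]
  [Module K H] [AddCommGroup H'] [Module K' H'] {p : Par K H} {p' : Par K' H'} {ι : Type*}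
  [Fintype ι]

/-- A semilinear map applied to the coefficients. -/
noncomputable def fsS (j : H →ₛₗ[φ] H') (α : Type*) : (α →₀ H) →ₛₗ[φ] (α →₀ H') where
  toFun := Finsupp.mapRange j (map_zero j)
  map_add' v w := by ext; simp
  map_smul' c v := by ext; simp

@[simp] lemma fsS_apply (j : H →ₛₗ[φ] H') {α : Type*} (v : α →₀ H) (a : α) :
    fsS j α v a = j (v a) := rfl

@[simp] lemma fsS_single (j : H →ₛₗ[φ] H') {α : Type*} (a : α) (v : H) :
    fsS j α (Finsupp.single a v) = Finsupp.single a (j v) :=
  Finsupp.mapRange_single (hf := map_zero j)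

lemma IsEvS.fs {j : H →ₛₗ[φ] H'} (hj : IsEvS p p' j) (α : Type*) :
    IsEvS (p.fs α) (p'.fs α) (fsS j α) := fun v => by ext; simp [hj _]

lemma pos_fsS (j : H →ₛₗ[φ] H') (y : LL H) : pos K' H' (fsS j ℤ y) = fsS j ℕ (pos K H y) := by
  ext; simp

lemma up_fsS (j : H →ₛₗ[φ] H') (v : VV H) : up K' H' (fsS j ℕ v) = fsS j ℤ (up K H v) := by
  induction v using Finsupp.induction_linear with
  | zero => simp
  | add a b ha hb => simp [ha, hb]
  | single m v => simp

lemma span_fsS {j : H →ₛₗ[φ] H'} (hs : Submodule.span K' (Set.range j) = ⊤) (α : Type*) :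
    Submodule.span K' (Set.range (fsS j α)) = ⊤ := by
  refine eq_top_iff.mpr fun v hv => ?_
  clear hv
  induction v using Finsupp.induction_linear with
  | zero => simp
  | add a b ha hb => exact add_mem ha hb
  | single a v =>
    have hv : v ∈ Submodule.span K' (Set.range j) := hs ▸ Submodule.mem_top
    induction hv using Submodule.span_induction with
    | mem v hv => obtain ⟨v, rfl⟩ := hv; exact Submodule.subset_span ⟨Finsupp.single a v, by simp⟩
    | zero => simp
    | add v w _ _ hv hw => rw [Finsupp.single_add]; exact add_mem hv hw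
    | smul c v _ hv => rw [← Finsupp.smul_single]; exact Submodule.smul_mem _ _ hv

/-- Compatible frames: the pairing is multiplied by `u`. -/
structure Frame.Cmp (fr : Frame p ι) (fr' : Frame p' ι) (j : H →ₛₗ[φ] H') (u u' : K') : Prop where
  ev : IsEvS p p' j
  η : ∀ v w, fr'.η (j v) (j w) = u * φ (fr.η v w)
  e : ∀ a, fr'.e a = j (fr.e a)
  f : ∀ a, fr'.f a = u' • j (fr.f a)
  one : fr'.one = j fr.one

namespace Frame.Cmp

variable {fr : Frame p ι} {fr' : Frame p' ι} {j : H →ₛₗ[φ] H'} {u u' : K'}
  (h : fr.Cmp fr' j u u')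
include h

lemma Ω (y y' : LL H) : fr'.Ω (fsS j ℤ y) (fsS j ℤ y') = u * φ (fr.Ω y y') := by
  induction y using Finsupp.induction_linear with
  | zero => simp
  | add a b ha hb => simp [ha, hb, mul_add]
  | single i v =>
    rw [fsS_single, Frame.Ω_single_left, Frame.Ω_single_left, fsS_apply, h.η, map_mul, sg, sg,
      map_intCast, mul_left_comm]

lemma neg (y : LL H) (v : VV H) : fr'.neg (fsS j ℤ y) (fsS j ℕ v) = u * φ (fr.neg y v) := by
  rw [Frame.neg_apply, up_fsS, h.Ω, Frame.neg_apply]

lemma dil : fr'.dil = fsS j ℕ fr.dil := by rw [Frame.dil, Frame.dil, fsS_single, h.one]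

variable [Algebra ℚ K] [Algebra ℚ K'] {A : Module.End K (LL H)} {A' : Module.End K' (LL H')}
  (hA : fr.Quad A) (hA' : fr'.Quad A') (e : ∀ y, A' (fsS j ℤ y) = fsS j ℤ (A y))
include hA hA' e

lemma q0 (x : S (p.fs ℕ)) :
    fr'.q0 A' (bcS _ (h.ev.fs ℕ) x) = bcS _ (h.ev.fs ℕ) (fr.q0 A x) := by
  rw [Frame.q0_eq, Frame.q0_eq, h.dil, Q0_bcS hA.isEv_blk hA'.isEv_blk]
  intro v
  simp [Frame.blk, up_fsS, e, pos_fsS]

lemma qm (x : S (p.fs ℕ)) :
    fr'.qm A' (bcS _ (h.ev.fs ℕ) x) = u • bcS _ (h.ev.fs ℕ) (fr.qm A x) := by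
  rw [hA.qm_eq, hA'.qm_eq, h.dil, Qm_bcS]
  intro v w
  rw [hA.qf_val, hA'.qf_val, up_fsS, e, h.neg]

lemma cas : fr'.cas A' = u' • bcS _ (h.ev.fs ℕ) (fr.cas A) := by
  obtain ⟨N, hN⟩ := hA.fin
  obtain ⟨N', hN'⟩ := hA'.fin
  rw [Frame.cas_eq (N := max N N') fun m hm => hN m (le_of_max_le_left hm),
    Frame.cas_eq (N := max N N') fun m hm => hN' m (le_of_max_le_right hm), bcS_smul, map_hf,
    smul_comm, map_sum, Finset.smul_sum (r := u')]
  congr 1
  refine sum_congr rfl fun m _ => ?_
  simp only [Frame.casT, map_sum, Finset.smul_sum, bcS_smul, map_mul, bcS_ι, h.e, h.f,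
    ← Finsupp.smul_single, map_smul, ← fsS_single, e, pos_fsS, mul_smul_comm, map_pow, map_neg,
    map_one]
  exact sum_congr rfl fun a _ => smul_comm _ _ _

lemma q1 (x : S (p.fs ℕ)) :
    fr'.q1 A' (bcS _ (h.ev.fs ℕ) x) = u' • bcS _ (h.ev.fs ℕ) (fr.q1 A x) := by
  simp [Frame.q1, h.cas hA hA' e]

end Frame.Cmp

end compat

end Vale.Agent.P269.Fock
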