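import Vale.Agent.P269.Fock.Sup

/-! Superderivations, contractions and second order contractions on `S p`. -/

namespace Vale.Agent.P269.Fock

variable {K : Type*} [CommRing K] [Algebra ℚ K] {V W : Type*} [AddCommGroup V] [Module K V]
  [AddCommGroup W] [Module K W] {p : Par K V}

/-- The parity conjugate of a map `V → S p`. -/
noncomputable abbrev cj (p : Par K V) : (V →ₗ[K] S p) →ₗ[K] V →ₗ[K] S p := (p.hom (parS p)).σ

omit [Algebra ℚ K] in
lemma cj_apply (δ : V →ₗ[K] S p) (v : V) : cj p δ v = par p (δ (p.σ v)) := rfl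

omit [Algebra ℚ K] in
@[simp] lemma cj_cj (δ : V →ₗ[K] S p) : cj p (cj p δ) = δ := (p.hom (parS p)).inv δ

lemma ι_ev_comm (v : V) (x : S p) : ι p (p.ev v) * x = x * ι p (p.ev v) := ι_comm_ev (p.σ_ev v) x

lemma mul_ι_eq (v : V) (x : S p) : x * ι p v = ι p (p.ev v) * x + ι p (p.od v) * par p x := by
  rw [ι_comm_ev (p.σ_ev v), ι_comm_od' (p.σ_od v), ← mul_add, ← map_add, p.ev_add_od]

theorem exists_der : ∃ D : S p →ₗ[K] (V →ₗ[K] S p) →ₗ[K] S p, D 1 = 0 ∧ ∀ v x δ,
    D (ι p v * x) δ = ι p (p.ev v) * D x δ + ι p (p.od v) * D x (cj p δ) + δ v * x := by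
  let α : V →ₗ[K] Module.End K ((V →ₗ[K] S p) →ₗ[K] S p) :=
    { toFun := fun v => LinearMap.llcomp K _ _ _ (LinearMap.mulLeft K (ι p (p.ev v))) +
        LinearMap.llcomp K _ _ _ (LinearMap.mulLeft K (ι p (p.od v))) ∘ₗ
          LinearMap.lcomp K _ (cj p)
      map_add' := fun v w => by
        ext F δ : 2
        simp [add_mul]; abel
      map_smul' := fun c v => by
        ext F δ : 2
        simp }
  have hα : ∀ v F δ, α v F δ = ι p (p.ev v) * F δ + ι p (p.od v) * F (cj p δ) :=
    fun _ _ _ => rfl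
  let β : V →ₗ[K] S p →ₗ[K] (V →ₗ[K] S p) →ₗ[K] S p :=
    { toFun := fun v => ((LinearMap.mul K (S p)) ∘ₗ LinearMap.applyₗ v).flip
      map_add' := fun v w => by
        ext x δ : 2
        simp
      map_smul' := fun c v => by
        ext x δ : 2
        simp }
  have hβ : ∀ v x δ, β v x δ = δ v * x := fun _ _ _ => rfl
  obtain ⟨D, h1, h2⟩ := exists_rec α β 0 ⟨by
      intro v w h
      ext F δ : 2
      simp only [Module.End.mul_apply, hα, Par.ev_of_ev h, Par.od_of_ev h, map_zero, zero_mul,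
        add_zero, mul_add]
      rw [← mul_assoc, ← mul_assoc, ← mul_assoc, ← mul_assoc, ι_comm_ev h, ι_comm_ev h], by
      intro v w hv hw
      ext F δ : 2
      simp only [Module.End.mul_apply, hα, Par.ev_of_od hv, Par.od_of_od hv, Par.ev_of_od hw,
        Par.od_of_od hw, map_zero, zero_mul, zero_add, LinearMap.neg_apply, cj_cj]
      rw [← mul_assoc, ← mul_assoc, (sc_ι p).od v w hv hw, neg_mul]⟩ (by
      intro v w h x
      ext δ : 1
      simp only [LinearMap.add_apply, hα, hβ, Par.ev_of_ev h, Par.od_of_ev h, map_zero, zero_mul,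
        add_zero, cj_apply, h]
      rw [← mul_assoc, ← mul_assoc, ← mul_assoc, ← mul_assoc, ← mul_assoc, ι_comm_ev h,
        mul_ι_eq v (δ w), add_mul]
      abel) (by
      intro v w hv hw x
      ext δ : 1
      simp only [LinearMap.add_apply, LinearMap.neg_apply, hα, hβ, Par.ev_of_od hv,
        Par.od_of_od hv, Par.ev_of_od hw, Par.od_of_od hw, map_zero, zero_mul, zero_add,
        cj_apply, hv, hw, map_neg, neg_mul, mul_neg]
      rw [← mul_assoc, ← mul_assoc, ← mul_assoc, ← mul_assoc, ι_comm_od' hv, ι_comm_od' hw]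
      abel)
  exact ⟨D, h1, fun v x δ => by rw [h2, LinearMap.add_apply, hα, hβ]⟩

variable (p) in
/-- The superderivation of `S p` extending `δ`. -/
noncomputable def der : (V →ₗ[K] S p) →ₗ[K] Module.End K (S p) :=
  (Classical.choose (exists_der (p := p))).flip

@[simp] lemma der_one (δ : V →ₗ[K] S p) : der p δ 1 = 0 :=
  LinearMap.congr_fun (Classical.choose_spec (exists_der (p := p))).1 δ

lemma der_ι_mul (δ : V →ₗ[K] S p) (v : V) (x : S p) : der p δ (ι p v * x) =
    ι p (p.ev v) * der p δ x + ι p (p.od v) * der p (cj p δ) x + δ v * x :=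
  (Classical.choose_spec (exists_der (p := p))).2 v x δ

lemma der_ι_mul_ev (δ : V →ₗ[K] S p) {v : V} (h : p.σ v = v) (x : S p) :
    der p δ (ι p v * x) = δ v * x + ι p v * der p δ x := by
  rw [der_ι_mul, Par.ev_of_ev h, Par.od_of_ev h, map_zero, zero_mul, add_zero, add_comm]

lemma der_ι_mul_od (δ : V →ₗ[K] S p) {v : V} (h : p.σ v = -v) (x : S p) :
    der p δ (ι p v * x) = δ v * x + ι p v * der p (cj p δ) x := by
  rw [der_ι_mul, Par.ev_of_od h, Par.od_of_od h, map_zero, zero_mul, zero_add, add_comm]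

/-- Even derivations. -/
lemma der_ι_mul_of_ev {δ : V →ₗ[K] S p} (h : cj p δ = δ) (v : V) (x : S p) :
    der p δ (ι p v * x) = δ v * x + ι p v * der p δ x := by
  rw [der_ι_mul, h, ← add_mul, ← map_add, p.ev_add_od, add_comm]

/-- Odd derivations. -/
lemma der_ι_mul_of_od {δ : V →ₗ[K] S p} (h : cj p δ = -δ) (v : V) (x : S p) :
    der p δ (ι p v * x) = δ v * x + ι p (p.σ v) * der p δ x := by
  rw [der_ι_mul, h, map_neg, LinearMap.neg_apply, mul_neg, ← sub_eq_add_neg, ← sub_mul, ← map_sub,
    p.ev_sub_od, add_comm]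

@[simp] lemma der_ι (δ : V →ₗ[K] S p) (v : V) : der p δ (ι p v) = δ v := by
  simpa using der_ι_mul δ v 1

@[simp] lemma der_algebraMap (δ : V →ₗ[K] S p) (c : K) : der p δ (algebraMap K _ c) = 0 := by
  rw [Algebra.algebraMap_eq_smul_one, map_smul, der_one, smul_zero]

lemma par_der (δ : V →ₗ[K] S p) (x : S p) : par p (der p δ x) = der p (cj p δ) (par p x) := by
  induction x using induction' generalizing δ with
  | h1 => simp
  | hev v x hv hx =>
    rw [der_ι_mul_ev _ hv, map_mul, par_ι_ev hv, der_ι_mul_ev _ hv, map_add, map_mul, map_mul, hx,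
      par_ι_ev hv, cj_apply, hv]
  | hod v x hv hx =>
    rw [der_ι_mul_od _ hv, map_mul, par_ι_od hv, neg_mul, map_neg, der_ι_mul_od _ hv, map_add,
      map_mul, map_mul, hx, par_ι_od hv, cj_apply, hv]
    simp [add_comm]
  | hadd x y hx hy => simp only [map_add, hx, hy]
  | hsmul c x hx => simp only [map_smul, hx]

/-- The Leibniz rule. -/
lemma der_mul (δ : V →ₗ[K] S p) (x y : S p) : der p δ (x * y) =
    der p δ x * y + (parS p).ev x * der p δ y + (parS p).od x * der p (cj p δ) y := by
  induction x using induction' generalizing δ with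
  | h1 =>
    have : (parS p).σ 1 = 1 := by simp
    simp [Par.ev_of_ev this, Par.od_of_ev this]
  | hev v x hv hx =>
    rw [mul_assoc, der_ι_mul_ev _ hv, der_ι_mul_ev _ hv, hx, ev_mul_ev (par_ι_ev hv),
      od_mul_ev (par_ι_ev hv)]
    simp only [mul_add, add_mul, mul_assoc, add_assoc]
  | hod v x hv hx =>
    rw [mul_assoc, der_ι_mul_od _ hv, der_ι_mul_od _ hv, hx, ev_mul_od (par_ι_od hv),
      od_mul_od (par_ι_od hv), cj_cj]
    simp only [mul_add, add_mul, mul_assoc, add_assoc]
    abel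
  | hadd x y hx hy => simp only [map_add, add_mul, hx, hy]; abel
  | hsmul c x hx => simp only [map_smul, smul_mul_assoc, hx, smul_add]

lemma der_mul_ev (δ : V →ₗ[K] S p) {x : S p} (h : par p x = x) (y : S p) :
    der p δ (x * y) = der p δ x * y + x * der p δ y := by
  rw [der_mul, Par.ev_of_ev (p := parS p) h, Par.od_of_ev (p := parS p) h, zero_mul, add_zero]

lemma der_mul_od (δ : V →ₗ[K] S p) {x : S p} (h : par p x = -x) (y : S p) :
    der p δ (x * y) = der p δ x * y + x * der p (cj p δ) y := by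
  rw [der_mul, Par.ev_of_od (p := parS p) h, Par.od_of_od (p := parS p) h, zero_mul, add_zero]

lemma der_mul_of_ev {δ : V →ₗ[K] S p} (h : cj p δ = δ) (x y : S p) :
    der p δ (x * y) = der p δ x * y + x * der p δ y := by
  rw [der_mul, h, add_assoc, ← add_mul, Par.ev_add_od]

lemma der_mul_of_od {δ : V →ₗ[K] S p} (h : cj p δ = -δ) (x y : S p) :
    der p δ (x * y) = der p δ x * y + par p x * der p δ y := by
  rw [der_mul, h, map_neg, LinearMap.neg_apply, mul_neg, add_assoc, ← sub_eq_add_neg, ← sub_mul,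
    Par.ev_sub_od, parS_σ]

variable (p) in
/-- The derivation extending an endomorphism of `V`. -/
noncomputable def dv : Module.End K V →ₗ[K] Module.End K (S p) :=
  der p ∘ₗ LinearMap.llcomp K V V (S p) (ι p)

variable (p) in
/-- Contraction with a linear form. -/
noncomputable def con : Module.Dual K V →ₗ[K] Module.End K (S p) :=
  der p ∘ₗ LinearMap.llcomp K V K (S p) (Algebra.linearMap K (S p))

lemma dv_def (a : Module.End K V) : dv p a = der p (ι p ∘ₗ a) := rfl

lemma con_def (φ : Module.Dual K V) : con p φ = der p (Algebra.linearMap K (S p) ∘ₗ φ) := rfl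

omit [Algebra ℚ K] in
lemma cj_ι_comp {a : Module.End K V} (h : IsEv p p a) : cj p (ι p ∘ₗ a) = ι p ∘ₗ a := by
  ext v; simp [h _, p.inv]

omit [Algebra ℚ K] in
lemma cj_alg_comp (φ : Module.Dual K V) :
    cj p (Algebra.linearMap K (S p) ∘ₗ φ) = Algebra.linearMap K (S p) ∘ₗ (φ ∘ₗ p.σ) := by
  ext v; simp

@[simp] lemma dv_one (a : Module.End K V) : dv p a 1 = 0 := der_one _

@[simp] lemma dv_ι (a : Module.End K V) (v : V) : dv p a (ι p v) = ι p (a v) := der_ι _ _

lemma dv_mul {a : Module.End K V} (h : IsEv p p a) (x y : S p) :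
    dv p a (x * y) = dv p a x * y + x * dv p a y := der_mul_of_ev (cj_ι_comp h) x y

lemma dv_ι_mul {a : Module.End K V} (h : IsEv p p a) (v : V) (x : S p) :
    dv p a (ι p v * x) = ι p (a v) * x + ι p v * dv p a x := by rw [dv_mul h, dv_ι]

lemma par_dv {a : Module.End K V} (h : IsEv p p a) (x : S p) :
    par p (dv p a x) = dv p a (par p x) := by rw [dv_def, par_der, cj_ι_comp h]

@[simp] lemma con_one (φ : Module.Dual K V) : con p φ 1 = 0 := der_one _

@[simp] lemma con_ι (φ : Module.Dual K V) (v : V) : con p φ (ι p v) = algebraMap K _ (φ v) :=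
  der_ι _ _

lemma par_con (φ : Module.Dual K V) (x : S p) :
    par p (con p φ x) = con p (φ ∘ₗ p.σ) (par p x) := by rw [con_def, par_der, cj_alg_comp]; rfl

lemma con_mul_ev (φ : Module.Dual K V) {x : S p} (h : par p x = x) (y : S p) :
    con p φ (x * y) = con p φ x * y + x * con p φ y := der_mul_ev _ h y

lemma con_mul_od (φ : Module.Dual K V) {x : S p} (h : par p x = -x) (y : S p) :
    con p φ (x * y) = con p φ x * y + x * con p (φ ∘ₗ p.σ) y := by
  rw [con_def, der_mul_od _ h y, cj_alg_comp]; rfl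

lemma con_mul_of_ev {φ : Module.Dual K V} (h : φ ∘ₗ p.σ = φ) (x y : S p) :
    con p φ (x * y) = con p φ x * y + x * con p φ y := by
  rw [con_def]; exact der_mul_of_ev (by rw [cj_alg_comp, h]) x y

lemma con_mul_of_od {φ : Module.Dual K V} (h : φ ∘ₗ p.σ = -φ) (x y : S p) :
    con p φ (x * y) = con p φ x * y + par p x * con p φ y := by
  rw [con_def]; exact der_mul_of_od (by rw [cj_alg_comp, h, LinearMap.comp_neg]) x y

lemma con_ι_mul_ev (φ : Module.Dual K V) {v : V} (h : p.σ v = v) (x : S p) :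
    con p φ (ι p v * x) = φ v • x + ι p v * con p φ x := by
  rw [con_mul_ev _ (par_ι_ev h), con_ι, Algebra.smul_def]

lemma con_ι_mul_od (φ : Module.Dual K V) {v : V} (h : p.σ v = -v) (x : S p) :
    con p φ (ι p v * x) = φ v • x + ι p v * con p (φ ∘ₗ p.σ) x := by
  rw [con_mul_od _ (par_ι_od h), con_ι, Algebra.smul_def]

lemma con_ι_mul_of_ev {φ : Module.Dual K V} (h : φ ∘ₗ p.σ = φ) (v : V) (x : S p) :
    con p φ (ι p v * x) = φ v • x + ι p v * con p φ x := by
  rw [con_mul_of_ev h, con_ι, Algebra.smul_def]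

lemma con_ι_mul_of_od {φ : Module.Dual K V} (h : φ ∘ₗ p.σ = -φ) (v : V) (x : S p) :
    con p φ (ι p v * x) = φ v • x + ι p (p.σ v) * con p φ x := by
  rw [con_mul_of_od h, con_ι, Algebra.smul_def, par_ι]

omit [Algebra ℚ K] in
lemma comp_σ_σ (φ : Module.Dual K V) : (φ ∘ₗ p.σ) ∘ₗ p.σ = φ := by ext v; simp [p.inv]

lemma apply_eq_zero_of_ev_od {φ : Module.Dual K V} (h : φ ∘ₗ p.σ = φ) {v : V} (hv : p.σ v = -v) :
    φ v = 0 := by
  have := LinearMap.congr_fun h v
  rw [LinearMap.comp_apply, hv, map_neg] at this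
  exact eq_zero_of_eq_neg (K := K) this.symm

lemma apply_eq_zero_of_od_ev {φ : Module.Dual K V} (h : φ ∘ₗ p.σ = -φ) {v : V} (hv : p.σ v = v) :
    φ v = 0 := by
  have := LinearMap.congr_fun h v
  rw [LinearMap.comp_apply, hv, LinearMap.neg_apply] at this
  exact eq_zero_of_eq_neg (K := K) this

lemma con_con_ev {ψ : Module.Dual K V} (h : ψ ∘ₗ p.σ = ψ) (φ : Module.Dual K V) (x : S p) :
    con p ψ (con p φ x) = con p φ (con p ψ x) := by
  induction x using induction' generalizing φ with
  | h1 => simp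
  | hev v x hv hx =>
    simp only [con_ι_mul_ev _ hv, map_add, map_smul, hx]; abel
  | hod v x hv hx =>
    simp only [con_ι_mul_od _ hv, map_add, map_smul, h, hx, apply_eq_zero_of_ev_od h hv,
      zero_smul, zero_add]
  | hadd x y hx hy => simp only [map_add, hx, hy]
  | hsmul c x hx => simp only [map_smul, hx]

lemma con_con_od {ψ : Module.Dual K V} (h : ψ ∘ₗ p.σ = -ψ) (φ : Module.Dual K V) (x : S p) :
    con p ψ (con p (φ ∘ₗ p.σ) x) = con p φ (con p ψ x) := by
  induction x using induction' generalizing φ with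
  | h1 => simp
  | hev v x hv hx =>
    simp only [con_ι_mul_ev _ hv, map_add, map_smul, hx, apply_eq_zero_of_od_ev h hv,
      zero_smul, zero_add, LinearMap.comp_apply, hv]
  | hod v x hv hx =>
    have h' := hx (φ ∘ₗ p.σ)
    rw [comp_σ_σ] at h'
    simp only [con_ι_mul_od _ hv, map_add, map_smul, h, comp_σ_σ, LinearMap.comp_apply, hv,
      map_neg, LinearMap.neg_apply, mul_neg, neg_smul, h', neg_add_rev]
    abel
  | hadd x y hx hy => simp only [map_add, hx, hy]
  | hsmul c x hx => simp only [map_smul, hx]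

lemma dv_con {a : Module.End K V} (h : IsEv p p a) (φ : Module.Dual K V) (x : S p) :
    con p φ (dv p a x) = dv p a (con p φ x) + con p (φ ∘ₗ a) x := by
  have hσ : ∀ φ : Module.Dual K V, (φ ∘ₗ p.σ) ∘ₗ a = (φ ∘ₗ a) ∘ₗ p.σ := fun φ => by
    ext v; simp [h v]
  induction x using induction' generalizing φ with
  | h1 => simp
  | hev v x hv hx =>
    have hav : p.σ (a v) = a v := by rw [h, hv]
    simp only [dv_ι_mul h, con_ι_mul_ev _ hv, con_ι_mul_ev _ hav, map_add, map_smul, hx, mul_add,
      LinearMap.comp_apply]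
    abel
  | hod v x hv hx =>
    have hav : p.σ (a v) = -a v := by rw [h, hv, map_neg]
    simp only [dv_ι_mul h, con_ι_mul_od _ hv, con_ι_mul_od _ hav, map_add, map_smul, hx, mul_add,
      LinearMap.comp_apply, hσ]
    abel
  | hadd x y hx hy => simp only [map_add, hx, hy]; abel
  | hsmul c x hx => simp only [map_smul, hx, smul_add]

lemma dv_dv {a b : Module.End K V} (ha : IsEv p p a) (hb : IsEv p p b) (x : S p) :
    dv p a (dv p b x) = dv p b (dv p a x) + dv p (a * b - b * a) x := by
  have hab : IsEv p p (a * b - b * a) := fun v => by simp [ha _, hb _]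
  induction x using induction with
  | h1 => simp
  | hι v x hx =>
    simp only [dv_ι_mul ha, dv_ι_mul hb, dv_ι_mul hab, map_add, hx, mul_add,
      LinearMap.sub_apply, Module.End.mul_apply]
    rw [map_sub (ι p), sub_mul]
    abel
  | hadd x y hx hy => simp only [map_add, hx, hy]; abel
  | hsmul c x hx => simp only [map_smul, hx, smul_add]

variable (p) in
/-- Even supersymmetric bilinear forms. -/
def SymB : Submodule K (V →ₗ[K] Module.Dual K V) where
  carrier := {Q | ∀ v w, Q v w = Q (p.σ w) v}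
  add_mem' := fun {a b} ha hb v w => by
    simp only [LinearMap.add_apply]; rw [ha v w, hb v w]
  zero_mem' := fun _ _ => rfl
  smul_mem' := fun c a ha v w => by
    simp only [LinearMap.smul_apply]; rw [ha v w]

omit [Algebra ℚ K] in
lemma SymB.comp_σ {Q : V →ₗ[K] Module.Dual K V} (h : Q ∈ SymB p) (v : V) :
    Q v ∘ₗ p.σ = Q (p.σ v) := by
  ext w
  rw [LinearMap.comp_apply, h v, p.inv, h w]

theorem exists_con2 : ∃ D : S p →ₗ[K] SymB p →ₗ[K] S p, D 1 = 0 ∧ ∀ v x Q,
    D (ι p v * x) Q = ι p v * D x Q + con p (Q.1 v) x := by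
  let α : V →ₗ[K] Module.End K (SymB p →ₗ[K] S p) :=
    LinearMap.llcomp K _ _ _ ∘ₗ LinearMap.mul K (S p) ∘ₗ ι p
  have hα : ∀ v F Q, α v F Q = ι p v * F Q := fun _ _ _ => rfl
  let β : V →ₗ[K] S p →ₗ[K] SymB p →ₗ[K] S p :=
    { toFun := fun v => (con p ∘ₗ LinearMap.applyₗ v ∘ₗ (SymB p).subtype).flip
      map_add' := fun v w => by
        ext x δ : 2
        simp
      map_smul' := fun c v => by
        ext x δ : 2
        simp }
  have hβ : ∀ v x Q, β v x Q = con p (Q.1 v) x := fun _ _ _ => rfl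
  obtain ⟨D, h1, h2⟩ := exists_rec α β 0 ⟨by
      intro v w h
      ext F δ : 2
      simp only [Module.End.mul_apply, hα]
      rw [← mul_assoc, ← mul_assoc, ι_comm_ev h], by
      intro v w hv hw
      ext F δ : 2
      simp only [Module.End.mul_apply, hα, LinearMap.neg_apply]
      rw [← mul_assoc, ← mul_assoc, (sc_ι p).od v w hv hw, neg_mul]⟩ (by
      intro v w h x
      ext Q : 1
      have hQ : Q.1 w ∘ₗ p.σ = Q.1 w := by rw [SymB.comp_σ Q.2, h]
      simp only [LinearMap.add_apply, hα, hβ, con_ι_mul_ev _ h, con_ι_mul_of_ev hQ]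
      rw [Q.2 v w, h]
      abel) (by
      intro v w hv hw x
      ext Q : 1
      have hQv : Q.1 v ∘ₗ p.σ = -Q.1 v := by rw [SymB.comp_σ Q.2, hv, map_neg]
      have hQw : Q.1 w ∘ₗ p.σ = -Q.1 w := by rw [SymB.comp_σ Q.2, hw, map_neg]
      simp only [LinearMap.add_apply, LinearMap.neg_apply, hα, hβ, con_ι_mul_od _ hv,
        con_ι_mul_od _ hw, hQv, hQw, map_neg, mul_neg]
      rw [Q.2 v w, hw, map_neg, LinearMap.neg_apply, neg_smul]
      abel)
  exact ⟨D, h1, fun v x δ => by rw [h2, LinearMap.add_apply, hα, hβ]⟩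

variable (p) in
/-- The second order contraction with an even supersymmetric form. -/
noncomputable def con2 : SymB p →ₗ[K] Module.End K (S p) :=
  (Classical.choose (exists_con2 (p := p))).flip

@[simp] lemma con2_one (Q : SymB p) : con2 p Q 1 = 0 :=
  LinearMap.congr_fun (Classical.choose_spec (exists_con2 (p := p))).1 Q

lemma con2_ι_mul (Q : SymB p) (v : V) (x : S p) :
    con2 p Q (ι p v * x) = ι p v * con2 p Q x + con p (Q.1 v) x :=
  (Classical.choose_spec (exists_con2 (p := p))).2 v x Q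

@[simp] lemma con2_ι (Q : SymB p) (v : V) : con2 p Q (ι p v) = 0 := by
  simpa using con2_ι_mul Q v 1

lemma con2_ι_ι (Q : SymB p) (v w : V) :
    con2 p Q (ι p v * ι p w) = algebraMap K _ (Q.1 v w) := by
  simp [con2_ι_mul]

lemma par_con2 (Q : SymB p) (x : S p) : par p (con2 p Q x) = con2 p Q (par p x) := by
  induction x using induction with
  | h1 => simp
  | hι v x hx => simp only [con2_ι_mul, map_add, map_mul, par_ι, hx, par_con, SymB.comp_σ Q.2]
  | hadd x y hx hy => simp only [map_add, hx, hy]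
  | hsmul c x hx => simp only [map_smul, hx]

lemma con2_con (Q : SymB p) (φ : Module.Dual K V) (x : S p) :
    con2 p Q (con p φ x) = con p φ (con2 p Q x) := by
  induction x using induction' generalizing φ with
  | h1 => simp
  | hev v x hv hx =>
    have hQ : Q.1 v ∘ₗ p.σ = Q.1 v := by rw [SymB.comp_σ Q.2, hv]
    simp only [con_ι_mul_ev _ hv, con2_ι_mul, map_add, map_smul, hx, con_con_ev hQ, add_assoc]
  | hod v x hv hx =>
    have hQ : Q.1 v ∘ₗ p.σ = -Q.1 v := by rw [SymB.comp_σ Q.2, hv, map_neg]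
    simp only [con_ι_mul_od _ hv, con2_ι_mul, map_add, map_smul, hx, con_con_od hQ, add_assoc]
  | hadd x y hx hy => simp only [map_add, hx, hy]
  | hsmul c x hx => simp only [map_smul, hx]

/-- An element killed by the degree operator is a scalar. -/
lemma eq_algebraMap_of_dv_id {x : S p} (h : dv p 1 x = 0) : x = algebraMap K _ (aug p x) := by
  have hid : IsEv p p (1 : Module.End K V) := fun _ => rfl
  -- eigenvectors
  let E : ℕ → Submodule K (S p) := fun d => LinearMap.ker (dv p 1 - ((d : ℕ) : K) • 1)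
  have hE : ∀ d y, y ∈ E d ↔ dv p 1 y = (d : K) • y := fun d y => by
    simp [E, sub_eq_zero]
  let F : ℕ → Submodule K (S p) := fun n => ⨆ d ∈ Finset.range n, E (d + 1)
  have hFs : ∀ n, F (n + 1) = F n ⊔ E (n + 1) := fun n => by
    simp only [F, Finset.range_add_one, Finset.iSup_insert]; rw [sup_comm]
  have hmono : ∀ {m n}, m ≤ n → F m ≤ F n := fun {m n} hmn =>
    biSup_mono fun d hd => Finset.mem_range.mpr (lt_of_lt_of_le (Finset.mem_range.mp hd) hmn)
  have hmul : ∀ v n y, y ∈ F n → ι p v * y ∈ F (n + 1) := by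
    intro v n
    induction n with
    | zero => intro y hy; simp [F] at hy; simp [hy]
    | succ n ih =>
      intro y hy
      rw [hFs] at hy
      obtain ⟨a, ha, b, hb, rfl⟩ := Submodule.mem_sup.mp hy
      rw [mul_add]
      refine add_mem (hmono (Nat.le_succ _) (ih a ha)) ?_
      rw [hFs]
      refine Submodule.mem_sup_right ((hE _ _).mpr ?_)
      rw [dv_ι_mul hid, (hE _ _).mp hb, mul_smul_comm]
      simp only [Module.End.one_apply, Nat.cast_add, Nat.cast_one, add_smul, one_smul]
      abel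
  have hall : ∀ y : S p, ∃ n, y - algebraMap K _ (aug p y) ∈ F n := by
    intro y
    induction y using induction with
    | h1 => exact ⟨0, by simp⟩
    | hι v y hy =>
      obtain ⟨n, hn⟩ := hy
      refine ⟨n + 1, ?_⟩
      have e : ι p v * y - algebraMap K _ (aug p (ι p v * y)) =
          ι p v * (y - algebraMap K _ (aug p y)) + aug p y • ι p v := by
        rw [map_mul, aug_ι, zero_mul, map_zero, sub_zero, mul_sub, ← Algebra.commutes,
          ← Algebra.smul_def, sub_add_cancel]
      rw [e]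
      refine add_mem (hmul v n _ hn) (Submodule.smul_mem _ _ (hmono (Nat.le_add_left 1 n) ?_))
      rw [hFs]
      exact Submodule.mem_sup_right ((hE _ _).mpr (by simp))
    | hadd y z hy hz =>
      obtain ⟨n, hn⟩ := hy
      obtain ⟨m, hm⟩ := hz
      refine ⟨max n m, ?_⟩
      rw [map_add, map_add, add_sub_add_comm]
      exact add_mem (hmono (le_max_left _ _) hn) (hmono (le_max_right _ _) hm)
    | hsmul c y hy =>
      obtain ⟨n, hn⟩ := hy
      refine ⟨n, ?_⟩
      rw [map_smul, smul_eq_mul, map_mul, ← Algebra.smul_def, ← smul_sub]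
      exact Submodule.smul_mem _ _ hn
  have hker : ∀ n y, y ∈ F n → ∀ c : ℕ, n < c ∨ c = 0 → dv p 1 y = (c : K) • y → y = 0 := by
    intro n
    induction n with
    | zero => intro y hy _ _ _; simpa [F] using hy
    | succ n ih =>
      intro y hy c hc hy0
      rw [hFs] at hy
      obtain ⟨a, ha, b, hb, rfl⟩ := Submodule.mem_sup.mp hy
      have hDa : dv p 1 a ∈ F n := by
        have : F n ≤ (F n).comap (dv p 1) := by
          refine iSup₂_le fun d hd z hz => ?_
          rw [Submodule.mem_comap, (hE _ _).mp hz]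
          exact Submodule.smul_mem _ _ (le_biSup (fun d => E (d + 1)) hd hz)
        exact this ha
      have hu : IsUnit ((c : K) - (n + 1 : ℕ)) := by
        have h0 : ((c : ℚ) - (n + 1 : ℕ)) ≠ 0 := by
          rw [sub_ne_zero]; exact_mod_cast (by omega)
        have := (IsUnit.mk0 _ h0).map (algebraMap ℚ K)
        simpa using this
      have e : ((c : K) - (n + 1 : ℕ)) • (a + b) = dv p 1 a - ((n + 1 : ℕ) : K) • a := by
        rw [sub_smul, ← hy0, map_add, (hE _ _).mp hb, smul_add]; abel
      have hmem : a + b ∈ F n := by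
        obtain ⟨u, hu⟩ := hu
        have : a + b = (u⁻¹ : Kˣ).val • (((c : K) - (n + 1 : ℕ)) • (a + b)) := by
          rw [← hu, smul_smul, Units.inv_mul, one_smul]
        rw [this, e]
        exact Submodule.smul_mem _ _ (sub_mem hDa (Submodule.smul_mem _ _ ha))
      exact ih _ hmem c (by omega) hy0
  obtain ⟨n, hn⟩ := hall x
  have := hker n _ hn 0 (Or.inr rfl) (by rw [map_sub, h, dv_def, der_algebraMap]; simp)
  exact sub_eq_zero.mp this

end Vale.Agent.P269.Fock
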