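import Vale.Agent.P269.Fock.Der
import Mathlib.RingTheory.Nilpotent.Exp

/-! Quadratic operators up to constants, annihilators, transfer along intertwiners, Schur lemma. -/

namespace Vale.Agent.P269.Fock

open Finset

section abstract

variable {K : Type*} [CommRing K] {HH E M HH' E' : Type*} [AddCommGroup HH] [Module K HH]
  [AddCommGroup E] [Module K E] [AddCommGroup M] [Module K M] [AddCommGroup HH'] [Module K HH']
  [AddCommGroup E'] [Module K E']

/-- `X` is a quantisation of `A` for the Heisenberg representation `h`. -/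
def IsQ (h : HH →ₗ[K] Module.End K E) (X : Module.End K E) (A : Module.End K HH) : Prop :=
  ∀ y, X * h y - h y * X = h (A y)

variable {h : HH →ₗ[K] Module.End K E} {X Y : Module.End K E} {A B : Module.End K HH}

lemma IsQ.mul_eq (hX : IsQ h X A) (y : HH) : X * h y = h y * X + h (A y) := by
  rw [← hX y]; abel

lemma IsQ.apply (hX : IsQ h X A) (y : HH) (x : E) : X (h y x) = h y (X x) + h (A y) x :=
  LinearMap.congr_fun (hX.mul_eq y) x

lemma IsQ.add (hX : IsQ h X A) (hY : IsQ h Y B) : IsQ h (X + Y) (A + B) := fun y => by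
  rw [LinearMap.add_apply, map_add, ← hX y, ← hY y, add_mul, mul_add]; abel

lemma IsQ.smul (hX : IsQ h X A) (c : K) : IsQ h (c • X) (c • A) := fun y => by
  rw [LinearMap.smul_apply, map_smul, ← hX y, smul_mul_assoc, mul_smul_comm, smul_sub]

lemma IsQ.neg (hX : IsQ h X A) : IsQ h (-X) (-A) := by simpa using hX.smul (-1)

lemma IsQ.sub (hX : IsQ h X A) (hY : IsQ h Y B) : IsQ h (X - Y) (A - B) := by
  simpa [sub_eq_add_neg] using hX.add hY.neg

lemma IsQ.const (c : K) : IsQ h (c • 1) 0 := fun y => by simp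

lemma IsQ.zero : IsQ h 0 0 := fun y => by simp

lemma IsQ.add_const (hX : IsQ h X A) (c : K) : IsQ h (X + c • 1) A := by
  simpa using hX.add (IsQ.const c)

lemma IsQ.sum {α : Type*} (s : Finset α) {X : α → Module.End K E} {A : α → Module.End K HH}
    (hX : ∀ a ∈ s, IsQ h (X a) (A a)) : IsQ h (∑ a ∈ s, X a) (∑ a ∈ s, A a) := by
  classical
  induction s using Finset.induction_on with
  | empty => simpa using IsQ.zero
  | insert a s ha ih =>
    rw [sum_insert ha, sum_insert ha]
    exact (hX a (mem_insert_self _ _)).add (ih fun b hb => hX b (mem_insert_of_mem hb))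

lemma IsQ.lie (hX : IsQ h X A) (hY : IsQ h Y B) : IsQ h (X * Y - Y * X) (A * B - B * A) := by
  intro y
  have e1 : X * Y * h y = h y * X * Y + h (A y) * Y + h (B y) * X + h (A (B y)) := by
    rw [mul_assoc, hY.mul_eq, mul_add, ← mul_assoc, hX.mul_eq, hX.mul_eq, add_mul]; abel
  have e2 : Y * X * h y = h y * Y * X + h (B y) * X + h (A y) * Y + h (B (A y)) := by
    rw [mul_assoc, hX.mul_eq, mul_add, ← mul_assoc, hY.mul_eq, hY.mul_eq, add_mul]; abel
  rw [sub_mul, e1, e2, LinearMap.sub_apply, map_sub, mul_sub, mul_assoc, mul_assoc]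
  simp only [Module.End.mul_apply]
  abel

/-- `Z` is annihilated by a quantisation of `A` (with some constant term). -/
def Kill (h : HH →ₗ[K] Module.End K E) (Z : E →ₗ[K] M) (A : Module.End K HH) : Prop :=
  ∃ X, IsQ h X A ∧ Z ∘ₗ X = 0

variable {Z : E →ₗ[K] M}

lemma Kill.add (hA : Kill h Z A) (hB : Kill h Z B) : Kill h Z (A + B) := by
  obtain ⟨X, hX, hX0⟩ := hA
  obtain ⟨Y, hY, hY0⟩ := hB
  exact ⟨X + Y, hX.add hY, by rw [LinearMap.comp_add, hX0, hY0, add_zero]⟩

lemma Kill.smul (hA : Kill h Z A) (c : K) : Kill h Z (c • A) := by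
  obtain ⟨X, hX, hX0⟩ := hA
  exact ⟨c • X, hX.smul c, by rw [LinearMap.comp_smul, hX0, smul_zero]⟩

lemma Kill.zero : Kill h Z 0 := ⟨0, IsQ.zero, by simp⟩

lemma Kill.neg (hA : Kill h Z A) : Kill h Z (-A) := by simpa using hA.smul (-1)

lemma Kill.sub (hA : Kill h Z A) (hB : Kill h Z B) : Kill h Z (A - B) := by
  simpa [sub_eq_add_neg] using hA.add hB.neg

lemma Kill.sum {α : Type*} (s : Finset α) {A : α → Module.End K HH}
    (hA : ∀ a ∈ s, Kill h Z (A a)) : Kill h Z (∑ a ∈ s, A a) := by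
  classical
  induction s using Finset.induction_on with
  | empty => simpa using Kill.zero
  | insert a s ha ih =>
    rw [sum_insert ha]
    exact (hA a (mem_insert_self _ _)).add (ih fun b hb => hA b (mem_insert_of_mem hb))

lemma comp_lie_eq_zero (hX : Z ∘ₗ X = 0) (hY : Z ∘ₗ Y = 0) : Z ∘ₗ (X * Y - Y * X) = 0 := by
  rw [LinearMap.comp_sub, Module.End.mul_eq_comp, Module.End.mul_eq_comp, ← LinearMap.comp_assoc,
    ← LinearMap.comp_assoc, hX, hY]
  simp

lemma Kill.lie (hA : Kill h Z A) (hB : Kill h Z B) : Kill h Z (A * B - B * A) := by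
  obtain ⟨X, hX, hX0⟩ := hA
  obtain ⟨Y, hY, hY0⟩ := hB
  exact ⟨_, hX.lie hY, comp_lie_eq_zero hX0 hY0⟩

lemma Kill.comp_left {M' : Type*} [AddCommGroup M'] [Module K M'] (hA : Kill h Z A)
    (f : M →ₗ[K] M') : Kill h (f ∘ₗ Z) A := by
  obtain ⟨X, hX, hX0⟩ := hA
  exact ⟨X, hX, by rw [LinearMap.comp_assoc, hX0, LinearMap.comp_zero]⟩

variable (h Z) in
/-- The annihilator as a submodule. -/
def ann : Submodule K (Module.End K HH) where
  carrier := {A | Kill h Z A}
  add_mem' := Kill.add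
  zero_mem' := Kill.zero
  smul_mem' c _ hA := Kill.smul hA c

/-- `G` intertwines the Heisenberg representations along `g`. -/
def Itw (h' : HH' →ₗ[K] Module.End K E') (h : HH →ₗ[K] Module.End K E) (g : HH' →ₗ[K] HH)
    (G : E' →ₗ[K] E) : Prop := ∀ y, G ∘ₗ h' y = h (g y) ∘ₗ G

variable {h' : HH' →ₗ[K] Module.End K E'} {g : HH' →ₗ[K] HH} {G : E' →ₗ[K] E}

lemma Itw.apply (hG : Itw h' h g G) (y : HH') (x : E') : G (h' y x) = h (g y) (G x) :=
  LinearMap.congr_fun (hG y) x

lemma Itw.comp {HH'' E'' : Type*} [AddCommGroup HH''] [Module K HH''] [AddCommGroup E'']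
    [Module K E''] {h'' : HH'' →ₗ[K] Module.End K E''} {g' : HH'' →ₗ[K] HH'} {G' : E'' →ₗ[K] E'}
    (hG : Itw h' h g G) (hG' : Itw h'' h' g' G') : Itw h'' h (g ∘ₗ g') (G ∘ₗ G') := fun y => by
  ext x; simp [hG'.apply, hG.apply]

lemma Itw.smul (hG : Itw h' h g G) (c : K) : Itw h' h g (c • G) := fun y => by
  ext x; simp [hG.apply]

lemma Itw.sub {G' : E' →ₗ[K] E} (hG : Itw h' h g G) (hG' : Itw h' h g G') :
    Itw h' h g (G - G') := fun y => by
  ext x; simp [hG.apply, hG'.apply]

lemma Itw.id : Itw h h LinearMap.id LinearMap.id := fun _ => rfl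

/-- The commutator of quantisations with an intertwiner is again an intertwiner. -/
lemma Itw.lie (hG : Itw h' h g G) {X' : Module.End K E'} {A' : Module.End K HH'}
    (hX : IsQ h X A) (hX' : IsQ h' X' A') (hA : ∀ y, g (A' y) = A (g y)) :
    Itw h' h g (X ∘ₗ G - G ∘ₗ X') := fun y => by
  ext x
  have e : X' (h' y x) = h' y (X' x) + h' (A' y) x := hX'.apply y x
  simp only [LinearMap.comp_apply, LinearMap.sub_apply, hG.apply, hX.apply, e, map_add, map_sub,
    hA]
  abel

/-- Transfer of annihilators along an intertwiner that is unique up to scalars. -/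
theorem Kill.transfer (hG : Itw h' h g G) (huniq : ∀ G', Itw h' h g G' → ∃ c : K, G' = c • G)
    {A' : Module.End K HH'} (hA : ∀ y, g (A' y) = A (g y)) (hq : ∃ X', IsQ h' X' A')
    (hZ : Kill h Z A) : Kill h' (Z ∘ₗ G) A' := by
  obtain ⟨X, hX, hX0⟩ := hZ
  obtain ⟨X', hX'⟩ := hq
  obtain ⟨c, hc⟩ := huniq _ (hG.lie hX hX' hA)
  refine ⟨X' + c • 1, hX'.add_const c, ?_⟩
  ext x
  have e := LinearMap.congr_fun hc x
  have e0 := LinearMap.congr_fun hX0 (G x)
  simp only [LinearMap.comp_apply, LinearMap.sub_apply, LinearMap.smul_apply, LinearMap.zero_apply,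
    LinearMap.add_apply, Module.End.one_apply, map_add, map_smul] at e e0 ⊢
  rw [← map_smul, ← e, map_sub, e0]; abel

/-- Conjugation by an invertible intertwiner. -/
lemma IsQ.conj (hX : IsQ h X A) (hG : Itw h' h g G) {G' : E →ₗ[K] E'} (h1 : ∀ x, G' (G x) = x)
    (h2 : ∀ x, G (G' x) = x) {A' : Module.End K HH'} (hA : ∀ y, g (A' y) = A (g y)) :
    IsQ h' (G' ∘ₗ X ∘ₗ G) A' := fun y => by
  have e : ∀ y x, G' (h (g y) x) = h' y (G' x) := fun y x => by
    conv_lhs => rw [← h2 x, ← hG.apply, h1]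
  ext x
  simp only [LinearMap.sub_apply, Module.End.mul_apply, LinearMap.comp_apply, hG.apply, hX.apply,
    map_add, e, ← hA, h1]
  abel

theorem Kill.conj (hZ : Kill h Z A) (hG : Itw h' h g G) {G' : E →ₗ[K] E'} (h1 : ∀ x, G' (G x) = x)
    (h2 : ∀ x, G (G' x) = x) {A' : Module.End K HH'} (hA : ∀ y, g (A' y) = A (g y)) :
    Kill h' (Z ∘ₗ G) A' := by
  obtain ⟨X, hX, hX0⟩ := hZ
  refine ⟨_, hX.conj hG h1 h2 hA, ?_⟩
  ext x
  simpa [h2] using LinearMap.congr_fun hX0 (G x)

lemma IsQ.pow_mul (hX : IsQ h X A) (n : ℕ) (y : HH) : X ^ n * h y =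
    ∑ q ∈ antidiagonal n, (n.choose q.1) • (h ((A ^ q.1) y) * X ^ q.2) := by
  induction n with
  | zero => simp
  | succ n ih =>
    rw [pow_succ', mul_assoc, ih, Finset.mul_sum]
    have e : ∀ q ∈ antidiagonal n, X * ((n.choose q.1) • (h ((A ^ q.1) y) * X ^ q.2)) =
        (n.choose q.1) • (h ((A ^ q.1) y) * X ^ (q.2 + 1)) +
          (n.choose q.2) • (h ((A ^ (q.1 + 1)) y) * X ^ q.2) := by
      intro q hq
      rw [mul_smul_comm, ← mul_assoc, hX.mul_eq, add_mul, smul_add, mul_assoc, ← pow_succ',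
        pow_succ' A, Module.End.mul_apply, Nat.choose_symm_of_eq_add (mem_antidiagonal.mp hq).symm]
    rw [sum_congr rfl e, sum_add_distrib]
    exact (Finset.sum_antidiagonal_choose_succ_nsmul
      (fun i j => h ((A ^ i) y) * X ^ j) n).symm

end abstract

section expo

variable (K : Type*) [CommRing K] [Algebra ℚ K] {R : Type*} [Ring R] [Algebra K R]

/-- The exponential of a nilpotent element of a `K`-algebra. -/
noncomputable def nexp (X : R) : R :=
  letI : Module ℚ R := Module.compHom R (algebraMap ℚ K)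
  IsNilpotent.exp X

/-- `1 / n!`. -/
noncomputable def ifac (n : ℕ) : K := algebraMap ℚ K ((n.factorial : ℚ)⁻¹)

variable {K}

lemma nexp_eq_sum {X : R} {k : ℕ} (h : X ^ k = 0) :
    nexp K X = ∑ i ∈ range k, ifac K i • X ^ i :=
  letI : Module ℚ R := Module.compHom R (algebraMap ℚ K)
  IsNilpotent.exp_eq_sum h

lemma nexp_add {X Y : R} (h : Commute X Y) (hX : IsNilpotent X) (hY : IsNilpotent Y) :
    nexp K (X + Y) = nexp K X * nexp K Y :=
  letI : Module ℚ R := Module.compHom R (algebraMap ℚ K)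
  IsNilpotent.exp_add_of_commute h hX hY

@[simp] lemma nexp_zero : nexp K (0 : R) = 1 :=
  letI : Module ℚ R := Module.compHom R (algebraMap ℚ K)
  IsNilpotent.exp_zero

lemma nexp_mul_neg {X : R} (hX : IsNilpotent X) : nexp K X * nexp K (-X) = 1 := by
  rw [← nexp_add (Commute.refl X).neg_right hX hX.neg, add_neg_cancel, nexp_zero]

lemma nexp_neg_mul {X : R} (hX : IsNilpotent X) : nexp K (-X) * nexp K X = 1 := by
  rw [← nexp_add (Commute.refl X).neg_left hX.neg hX, neg_add_cancel, nexp_zero]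

lemma map_nexp {R' : Type*} [Ring R'] [Algebra K R'] (f : R →ₐ[K] R') {X : R}
    (hX : IsNilpotent X) : f (nexp K X) = nexp K (f X) := by
  obtain ⟨k, hk⟩ := hX
  rw [nexp_eq_sum hk, nexp_eq_sum (k := k) (by rw [← map_pow, hk, map_zero]), map_sum]
  simp

lemma commute_nexp {X Y : R} (h : Commute Y X) (hX : IsNilpotent X) : Commute Y (nexp K X) := by
  obtain ⟨k, hk⟩ := hX
  rw [nexp_eq_sum hk]
  exact Commute.sum_right _ _ _ fun i _ => (h.pow_right i).smul_right _

@[simp] lemma ifac_zero : ifac K 0 = 1 := by simp [ifac]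

lemma ifac_succ (n : ℕ) : ((n : K) + 1) * ifac K (n + 1) = ifac K n := by
  have : ((n : K) + 1) = algebraMap ℚ K ((n : ℚ) + 1) := by simp
  rw [this, ifac, ifac, ← map_mul, Nat.factorial_succ]
  congr 1
  have : (n.factorial : ℚ) ≠ 0 := by exact_mod_cast n.factorial_ne_zero
  push_cast; field_simp

variable {HH E M : Type*} [AddCommGroup HH] [Module K HH]
  [AddCommGroup E] [Module K E] [AddCommGroup M] [Module K M]
  {h : HH →ₗ[K] Module.End K E} {X : Module.End K E} {A : Module.End K HH}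

/-- Egorov: the exponential of a quantisation intertwines along the exponential. -/
theorem IsQ.itw_nexp (hX : IsQ h X A) (hn : IsNilpotent X) (hA : IsNilpotent A) :
    Itw h h (nexp K A) (nexp K X) := by
  intro y
  let L : Module.End K (Module.End K E) := LinearMap.mulLeft K X
  let R : Module.End K (Module.End K E) := LinearMap.mulRight K X
  have hL : IsNilpotent L := LinearMap.isNilpotent_mulLeft_iff K X |>.mpr hn
  have hR : IsNilpotent R := LinearMap.isNilpotent_mulRight_iff K X |>.mpr hn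
  have hLR : Commute L R := LinearMap.commute_mulLeft_right X X
  have hD : IsNilpotent (L - R) := hLR.isNilpotent_sub hL hR
  have e : nexp K L = nexp K (L - R) * nexp K R := by
    rw [← nexp_add (hLR.sub_left (Commute.refl R)) hD hR, sub_add_cancel]
  obtain ⟨k, hk⟩ := hn
  have eL : ∀ T, nexp K L T = nexp K X * T := fun T => by
    rw [nexp_eq_sum hk, nexp_eq_sum (k := k) (by
      simp only [L, LinearMap.pow_mulLeft, hk, LinearMap.mulLeft_zero_eq_zero])]
    simp [L, LinearMap.pow_mulLeft, Finset.sum_mul]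
  have eR : ∀ T, nexp K R T = T * nexp K X := fun T => by
    rw [nexp_eq_sum hk, nexp_eq_sum (k := k) (by
      simp only [R, LinearMap.pow_mulRight, hk, LinearMap.mulRight_zero_eq_zero])]
    simp [R, LinearMap.pow_mulRight, Finset.mul_sum]
  have hc : Commute X (nexp K X) := commute_nexp (Commute.refl X) ⟨k, hk⟩
  have eD : ∀ n y, ((L - R) ^ n) (h y * nexp K X) = h ((A ^ n) y) * nexp K X := by
    intro n
    induction n with
    | zero => intro y; simp
    | succ n ih =>
      intro y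
      rw [pow_succ, Module.End.mul_apply, pow_succ, Module.End.mul_apply, ← ih]
      congr 1
      simp only [L, R, LinearMap.sub_apply, LinearMap.mulLeft_apply, LinearMap.mulRight_apply]
      rw [mul_assoc, ← hc.eq, ← mul_assoc, ← mul_assoc, ← sub_mul, hX y]
  obtain ⟨a, ha⟩ := hA
  obtain ⟨d, hd⟩ := hD
  have := LinearMap.congr_fun e (h y)
  rw [eL, Module.End.mul_apply, eR, nexp_eq_sum (k := max a d)
    (pow_eq_zero_of_le (le_max_right _ _) hd)] at this
  rw [← Module.End.mul_eq_comp, ← Module.End.mul_eq_comp, this, nexp_eq_sum (k := max a d)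
    (pow_eq_zero_of_le (le_max_left _ _) ha)]
  simp [eD, Finset.sum_mul]

lemma comp_nexp_of_eigen {Z : E →ₗ[K] M} {c : K} (hZ : Z ∘ₗ X = c • Z) (hn : IsNilpotent X)
    (hc : IsNilpotent c) : Z ∘ₗ nexp K X = nexp K c • Z := by
  obtain ⟨k, hk⟩ := hn
  obtain ⟨l, hl⟩ := hc
  have e : ∀ n x, Z ((X ^ n) x) = c ^ n • Z x := by
    intro n
    induction n with
    | zero => intro x; simp
    | succ n ih =>
      intro x
      rw [pow_succ', Module.End.mul_apply, ← LinearMap.comp_apply, hZ, LinearMap.smul_apply, ih,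
        pow_succ', mul_smul]
  ext x
  rw [nexp_eq_sum (k := max k l) (pow_eq_zero_of_le (le_max_left _ _) hk),
    nexp_eq_sum (k := max k l) (pow_eq_zero_of_le (le_max_right _ _) hl)]
  simp [e, Finset.sum_smul, mul_smul]

/-- Transfer along the exponential of a nilpotent quantisation. -/
theorem Kill.nexp {Z : E →ₗ[K] M} {B B' : Module.End K HH} (hZ : Kill h Z B) (hX : IsQ h X A)
    (hn : IsNilpotent X) (hA : IsNilpotent A) (hB : ∀ y, nexp K A (B' y) = B (nexp K A y)) :
    Kill h (Z ∘ₗ nexp K X) B' :=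
  hZ.conj (hX.itw_nexp hn hA) (G' := Fock.nexp K (-X))
    (fun x => LinearMap.congr_fun (nexp_neg_mul hn) x)
    (fun x => LinearMap.congr_fun (nexp_mul_neg hn) x) hB

end expo

section schur

variable {K : Type*} [CommRing K] [Algebra ℚ K] {V : Type*} [AddCommGroup V] [Module K V]
  {p : Par K V}

/-- A vector and a form of the same parity. -/
def SameP (p : Par K V) (e : V) (φ : Module.Dual K V) : Prop :=
  (p.σ e = e ∧ φ ∘ₗ p.σ = φ) ∨ (p.σ e = -e ∧ φ ∘ₗ p.σ = -φ)

omit [Algebra ℚ K] in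
lemma SameP.isEv {e : V} {φ : Module.Dual K V} (h : SameP p e φ) : IsEv p p (φ.smulRight e) := by
  intro v
  rcases h with ⟨h1, h2⟩ | ⟨h1, h2⟩
  · have := LinearMap.congr_fun h2 v
    simp only [LinearMap.comp_apply] at this
    simp [h1, this]
  · have := LinearMap.congr_fun h2 v
    simp only [LinearMap.comp_apply, LinearMap.neg_apply] at this
    simp [h1, this]

lemma dv_smulRight {e : V} {φ : Module.Dual K V} (h : SameP p e φ) (x : S p) :
    dv p (φ.smulRight e) x = ι p e * con p φ x := by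
  induction x using induction with
  | h1 => simp
  | hι v x hx =>
    rw [dv_ι_mul h.isEv, hx, LinearMap.smulRight_apply, map_smul, smul_mul_assoc]
    rcases h with ⟨h1, h2⟩ | ⟨h1, h2⟩
    · rw [con_ι_mul_of_ev h2, mul_add, mul_smul_comm, ← mul_assoc, ← mul_assoc,
        ι_comm_ev h1 (ι p v)]
    · rw [con_ι_mul_of_od h2, mul_add, mul_smul_comm, ← mul_assoc, ← mul_assoc, ← par_ι,
        ι_comm_od' h1]
  | hadd x y hx hy => simp only [map_add, hx, hy, mul_add]
  | hsmul c x hx => simp only [map_smul, hx, mul_smul_comm]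

lemma eventually_dv_eq {α : Type*} {l : Filter α} {π : α → Module.End K V} {a : Module.End K V}
    (hπ : ∀ n, IsEv p p (π n)) (ha : IsEv p p a) (h : ∀ v, ∀ᶠ n in l, π n v = a v) (x : S p) :
    ∀ᶠ n in l, dv p (π n) x = dv p a x := by
  induction x using induction with
  | h1 => simp
  | hι v x hx =>
    filter_upwards [hx, h v] with n h1 h2
    rw [dv_ι_mul (hπ n), dv_ι_mul ha, h1, h2]
  | hadd x y hx hy =>
    filter_upwards [hx, hy] with n h1 h2
    rw [map_add, map_add, h1, h2]
  | hsmul c x hx =>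
    filter_upwards [hx] with n h1
    rw [map_smul, map_smul, h1]

open Polynomial in
lemma exists_aeval_dv (x : S p) : ∃ n : ℕ, aeval (dv p 1) (∏ d ∈ range n, (X - C ((d : K) + 1)))
    (x - algebraMap K _ (aug p x)) = 0 := by
  have hid : IsEv p p (1 : Module.End K V) := fun _ => rfl
  have key : ∀ (P : K[X]) v y,
      aeval (dv p 1) P (ι p v * y) = ι p v * aeval (dv p 1) (P.comp (X + 1)) y := by
    intro P v
    induction P using Polynomial.induction_on with
    | C c => intro y; simp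
    | add P Q hP hQ => intro y; simp [hP, hQ, mul_add]
    | monomial n c ih =>
      intro y
      rw [pow_succ, ← mul_assoc, map_mul (aeval _), Module.End.mul_apply, aeval_X, dv_ι_mul hid,
        Module.End.one_apply, ← mul_add, ih, mul_comp _ X, map_mul (aeval _), Module.End.mul_apply,
        X_comp]
      simp [add_comm]
  have hmono : ∀ (y : S p) m n, m ≤ n →
      aeval (dv p 1) (∏ d ∈ range m, (X - C ((d : K) + 1))) y = 0 →
      aeval (dv p 1) (∏ d ∈ range n, (X - C ((d : K) + 1))) y = 0 := by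
    intro y m n hmn hy
    rw [← prod_range_mul_prod_Ico _ hmn, mul_comm, map_mul, Module.End.mul_apply, hy, map_zero]
  induction x using induction with
  | h1 => exact ⟨0, by simp⟩
  | hι v y hy =>
    obtain ⟨n, hn⟩ := hy
    refine ⟨n + 1, ?_⟩
    rw [map_mul, aug_ι, zero_mul, map_zero, sub_zero, key, prod_range_succ', mul_comp,
      Polynomial.prod_comp]
    have e : ∏ d ∈ range n, (X - C (((d + 1 : ℕ) : K) + 1)).comp (X + 1) =
        ∏ d ∈ range n, (X - C ((d : K) + 1)) :=
      prod_congr rfl fun d _ => by simp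
    have e2 : (X - C (((0 : ℕ) : K) + 1)).comp (X + 1) = X := by simp
    have e3 : dv p 1 y = dv p 1 (y - algebraMap K _ (aug p y)) := by
      rw [map_sub, dv_def, der_algebraMap, sub_zero]
    rw [e, e2, map_mul, Module.End.mul_apply, aeval_X, e3, ← aeval_X (R := K) (dv p 1),
      ← Module.End.mul_apply, aeval_X]
    nth_rewrite 2 [← aeval_X (R := K) (dv p 1)]
    rw [← map_mul, mul_comm, map_mul, Module.End.mul_apply, hn, map_zero, mul_zero]
  | hadd y z hy hz =>
    obtain ⟨n, hn⟩ := hy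
    obtain ⟨m, hm⟩ := hz
    refine ⟨max n m, ?_⟩
    rw [map_add, map_add, add_sub_add_comm, map_add, hmono _ _ _ (le_max_left _ _) hn,
      hmono _ _ _ (le_max_right _ _) hm, add_zero]
  | hsmul c y hy =>
    obtain ⟨n, hn⟩ := hy
    refine ⟨n, ?_⟩
    rw [map_smul, smul_eq_mul, map_mul, ← Algebra.smul_def, ← smul_sub, map_smul, hn, smul_zero]

open Polynomial in
lemma sub_aug_mem {U : Submodule K (S p)} (hU : ∀ y ∈ U, dv p 1 y ∈ U) {x : S p}
    (hx : dv p 1 x ∈ U) : x - algebraMap K _ (aug p x) ∈ U := by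
  obtain ⟨n, hn⟩ := exists_aeval_dv x
  set y := x - algebraMap K _ (aug p x)
  have hy : dv p 1 y ∈ U := by rwa [map_sub, dv_def, der_algebraMap, sub_zero]
  clear_value y
  induction n generalizing y with
  | zero => simp at hn; simp [hn]
  | succ n ih =>
    rw [prod_range_succ, map_mul, Module.End.mul_apply] at hn
    have h1 := ih _ hn (by
      simp only [map_sub, aeval_X, aeval_C, LinearMap.sub_apply, Module.algebraMap_end_apply,
        map_smul]
      exact sub_mem (hU _ hy) (U.smul_mem _ hy))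
    simp only [map_sub, aeval_X, aeval_C, LinearMap.sub_apply, Module.algebraMap_end_apply] at h1
    have h2 : ((n : K) + 1) • y ∈ U := by
      have := sub_mem hy h1
      rwa [sub_sub_cancel] at this
    have h3 : y = algebraMap ℚ K ((n : ℚ) + 1)⁻¹ • ((n : K) + 1) • y := by
      have : ((n : K) + 1) = algebraMap ℚ K ((n : ℚ) + 1) := by simp
      rw [smul_smul, this, ← map_mul, inv_mul_cancel₀ (by positivity), map_one, one_smul]
    rw [h3]
    exact U.smul_mem _ h2

/-- The forms in `Φ` see everything: the degree operator is locally a combination of contractions. -/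
def Sep (p : Par K V) (Φ : Set (Module.Dual K V)) : Prop :=
  ∀ x : S p, dv p 1 x ∈ Submodule.span K {y | ∃ v, ∃ φ ∈ Φ, y = ι p v * con p φ x}

lemma Sep.sub_aug_mem {Φ : Set (Module.Dual K V)} (hΦ : Sep p Φ) {U : Submodule K (S p)}
    (hU : ∀ y ∈ U, dv p 1 y ∈ U) (hU' : ∀ v, ∀ y ∈ U, ι p v * y ∈ U) {x : S p}
    (hx : ∀ φ ∈ Φ, con p φ x ∈ U) : x - algebraMap K _ (aug p x) ∈ U := by
  refine Fock.sub_aug_mem hU (Submodule.span_le.mpr ?_ (hΦ x))
  rintro _ ⟨v, φ, hφ, rfl⟩
  exact hU' v _ (hx φ hφ)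

lemma Sep.eq_algebraMap {Φ : Set (Module.Dual K V)} (hΦ : Sep p Φ) {x : S p}
    (hx : ∀ φ ∈ Φ, con p φ x = 0) : x = algebraMap K _ (aug p x) :=
  sub_eq_zero.mp ((Submodule.mem_bot K).mp (hΦ.sub_aug_mem (U := ⊥)
    (fun y hy => by simp [(Submodule.mem_bot K).mp hy])
    (fun v y hy => by simp [(Submodule.mem_bot K).mp hy]) fun φ hφ => by simp [hx φ hφ]))

/-- Uniqueness of a perturbed vacuum: `I` is a nilpotent ideal. -/
lemma Sep.vac_unique {Φ : Set (Module.Dual K V)} (hΦ : Sep p Φ) {I : Ideal K} (hI : IsNilpotent I)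
    {x : S p} (h0 : aug p x = 0)
    (hx : ∀ φ ∈ Φ, ∀ J : Ideal K, x ∈ J • (⊤ : Submodule K (S p)) →
      con p φ x ∈ (I * J) • (⊤ : Submodule K (S p))) : x = 0 := by
  have hst : ∀ (J : Ideal K) (f : Module.End K (S p)), ∀ y ∈ J • (⊤ : Submodule K (S p)),
      f y ∈ J • (⊤ : Submodule K (S p)) := fun J f y hy => by
    have := Submodule.mem_map_of_mem (f := f) hy
    rw [Submodule.map_smul''] at this
    exact Submodule.smul_mono le_rfl le_top this
  have : ∀ n, x ∈ (I ^ n) • (⊤ : Submodule K (S p)) := by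
    intro n
    induction n with
    | zero => simp
    | succ n ih =>
      have := hΦ.sub_aug_mem (U := (I * I ^ n) • ⊤) (hst _ _)
        (fun v => hst _ (LinearMap.mulLeft K (ι p v))) fun φ hφ => hx φ hφ _ ih
      rwa [h0, map_zero, sub_zero, ← pow_succ'] at this
  obtain ⟨n, hn⟩ := hI
  simpa [hn] using this n

omit [Algebra ℚ K] in
/-- An intertwiner out of `S p` is determined by the image of the vacuum. -/
lemma Itw.ext {HH' HH E : Type*} [AddCommGroup HH'] [Module K HH'] [AddCommGroup HH] [Module K HH]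
    [AddCommGroup E] [Module K E] {h' : HH' →ₗ[K] Module.End K (S p)}
    {h : HH →ₗ[K] Module.End K E} {g : HH' →ₗ[K] HH} {G G' : S p →ₗ[K] E}
    (hm : ∀ v, ∃ y, h' y = LinearMap.mulLeft K (ι p v)) (hG : Itw h' h g G) (hG' : Itw h' h g G')
    (h1 : G 1 = G' 1) : G = G' := by
  refine lin_ext h1 fun v x hx => ?_
  obtain ⟨y, hy⟩ := hm v
  have e : ι p v * x = h' y x := by rw [hy]; rfl
  rw [e, hG.apply, hG'.apply, hx]

end schur

end Vale.Agent.P269.Fock
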