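import Vale.Agent.P269.Fock.Heis
import Mathlib.Algebra.BigOperators.Finprod

/-! The loop space `H[z, z⁻¹]`, its Heisenberg representation on `S(H[z])`, quantisation. -/

namespace Vale.Agent.P269.Fock

open Finset

variable {K : Type*} [CommRing K] {H : Type*} [AddCommGroup H] [Module K H]

/-- The parity on finitely supported families. -/
noncomputable def Par.fs (p : Par K H) (α : Type*) : Par K (α →₀ H) where
  σ := Finsupp.mapRange.linearMap p.σ
  inv v := by ext a; simp [p.inv]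

@[simp] lemma Par.fs_σ (p : Par K H) {α : Type*} (v : α →₀ H) (a : α) :
    (p.fs α).σ v a = p.σ (v a) := rfl

@[simp] lemma Par.fs_σ_single (p : Par K H) {α : Type*} (a : α) (v : H) :
    (p.fs α).σ (Finsupp.single a v) = Finsupp.single a (p.σ v) := by
  simp [Par.fs]

/-- A perfect even supersymmetric pairing with a homogeneous frame: `∑ e a ⊗ f a` is the class of
the diagonal. `one` is the unit vector that defines the dilaton shift. -/
structure Frame (p : Par K H) (ι : Type*) [Fintype ι] where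
  η : H →ₗ[K] Module.Dual K H
  sym : η ∈ SymB p
  e : ι → H
  f : ι → H
  π : ι → ℕ
  he : ∀ a, p.σ (e a) = (-1 : K) ^ π a • e a
  hf : ∀ a, p.σ (f a) = (-1 : K) ^ π a • f a
  left : ∀ v, ∑ a, η (f a) v • e a = v
  one : H
  hone : p.σ one = one

/-- Positive part of the loop space. -/
abbrev VV (H : Type*) [AddCommGroup H] := ℕ →₀ H

/-- The loop space. -/
abbrev LL (H : Type*) [AddCommGroup H] := ℤ →₀ H

variable (K H) in
/-- The inclusion `H[z] → H[z, z⁻¹]`. -/
noncomputable def up : VV H →ₗ[K] LL H := Finsupp.lmapDomain H K (Nat.cast : ℕ → ℤ)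

variable (K H) in
/-- The projection `H[z, z⁻¹] → H[z]`. -/
noncomputable def pos : LL H →ₗ[K] VV H := Finsupp.lcomapDomain (Nat.cast : ℕ → ℤ) Nat.cast_injective

@[simp] lemma up_single (m : ℕ) (v : H) :
    up K H (Finsupp.single m v) = Finsupp.single (m : ℤ) v := by simp [up]

@[simp] lemma pos_apply (y : LL H) (m : ℕ) : pos K H y m = y m := rfl

@[simp] lemma up_apply_nat (v : VV H) (m : ℕ) : up K H v (m : ℤ) = v m :=
  Finsupp.mapDomain_apply Nat.cast_injective v m

lemma up_apply_neg (v : VV H) {j : ℤ} (hj : j < 0) : up K H v j = 0 :=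
  Finsupp.mapDomain_of_notMem_range v j (by rintro ⟨m, rfl⟩; omega)

@[simp] lemma pos_up (v : VV H) : pos K H (up K H v) = v := by ext m; simp

@[simp] lemma pos_single_nat (m : ℕ) (v : H) :
    pos K H (Finsupp.single (m : ℤ) v) = Finsupp.single m v := by rw [← up_single (K := K), pos_up]

lemma pos_single_neg {j : ℤ} (hj : j < 0) (v : H) : pos K H (Finsupp.single j v) = 0 := by
  ext m
  rw [pos_apply, Finsupp.single_eq_of_ne (by omega), Finsupp.zero_apply]

lemma isEv_up (p : Par K H) : IsEv (p.fs ℕ) (p.fs ℤ) (up K H) := fun v => by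
  ext j
  rcases lt_or_ge j 0 with hj | hj
  · simp [up_apply_neg _ hj]
  · obtain ⟨m, rfl⟩ := Int.eq_ofNat_of_zero_le hj; simp

lemma isEv_pos (p : Par K H) : IsEv (p.fs ℤ) (p.fs ℕ) (pos K H) := fun _ => by ext; simp

lemma IsEv.comp {V W U : Type*} [AddCommGroup V] [Module K V] [AddCommGroup W] [Module K W]
    [AddCommGroup U] [Module K U] {p : Par K V} {q : Par K W} {r : Par K U} {g : W →ₗ[K] U}
    {f : V →ₗ[K] W} (hg : IsEv q r g) (hf : IsEv p q f) : IsEv p r (g ∘ₗ f) := fun v => by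
  rw [LinearMap.comp_apply, hg, hf, LinearMap.comp_apply]

section isEv
variable {V W : Type*} [AddCommGroup V] [Module K V] [AddCommGroup W] [Module K W]
  {p : Par K V} {q : Par K W}

lemma IsEv.mul {f g : Module.End K V} (hf : IsEv p p f) (hg : IsEv p p g) : IsEv p p (f * g) :=
  hf.comp hg

lemma IsEv.one : IsEv p p (1 : Module.End K V) := fun _ => rfl

lemma IsEv.zero : IsEv p q (0 : V →ₗ[K] W) := fun _ => by simp

lemma IsEv.add {f g : V →ₗ[K] W} (hf : IsEv p q f) (hg : IsEv p q g) : IsEv p q (f + g) :=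
  fun v => by simp [hf v, hg v]

lemma IsEv.smul {f : V →ₗ[K] W} (hf : IsEv p q f) (c : K) : IsEv p q (c • f) :=
  fun v => by simp [hf v]

lemma IsEv.neg {f : V →ₗ[K] W} (hf : IsEv p q f) : IsEv p q (-f) := fun v => by simp [hf v]

lemma IsEv.sub {f g : V →ₗ[K] W} (hf : IsEv p q f) (hg : IsEv p q g) : IsEv p q (f - g) :=
  fun v => by simp [hf v, hg v]

lemma IsEv.pow {f : Module.End K V} (hf : IsEv p p f) (n : ℕ) : IsEv p p (f ^ n) := by
  induction n with
  | zero => exact IsEv.one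
  | succ n ih => rw [pow_succ]; exact ih.mul hf

lemma IsEv.sum {α : Type*} (s : Finset α) {f : α → V →ₗ[K] W} (hf : ∀ a ∈ s, IsEv p q (f a)) :
    IsEv p q (∑ a ∈ s, f a) := fun v => by
  rw [LinearMap.sum_apply, LinearMap.sum_apply, map_sum]
  exact sum_congr rfl fun a ha => hf a ha v

end isEv

/-- `(-1)^j`. -/
def sg (K : Type*) [CommRing K] (j : ℤ) : K := ((j.negOnePow : ℤ) : K)

@[simp] lemma sg_nat (m : ℕ) : sg K m = (-1) ^ m := by simp [sg, Int.coe_negOnePow_natCast]

lemma sg_add (i j : ℤ) : sg K (i + j) = sg K i * sg K j := by simp [sg, Int.negOnePow_add]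

lemma sg_succ (j : ℤ) : sg K (j + 1) = -sg K j := by simp [sg, Int.negOnePow_succ]

lemma sg_pred (j : ℤ) : sg K (j - 1) = -sg K j := by
  have := sg_succ (K := K) (j - 1)
  rw [sub_add_cancel] at this
  rw [this, neg_neg]

@[simp] lemma sg_neg (j : ℤ) : sg K (-j) = sg K j := by simp [sg, Int.negOnePow_neg]

@[simp] lemma sg_zero : sg K 0 = 1 := by simp [sg]

lemma sg_mul_self (j : ℤ) : sg K j * sg K j = 1 := by
  rw [← sg_add, ← two_mul, sg, Int.negOnePow_two_mul]; simp

lemma neg_one_pow_mul_self (m : ℕ) : (-1 : K) ^ m * (-1) ^ m = 1 := by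
  rw [← mul_pow]; simp

namespace Frame

variable {p : Par K H} {ι : Type*} [Fintype ι] (fr : Frame p ι)

lemma η_symm (v w : H) : fr.η v w = fr.η (p.σ w) v := fr.sym v w

lemma η_σ (v w : H) : fr.η v (p.σ w) = fr.η (p.σ v) w :=
  LinearMap.congr_fun (SymB.comp_σ fr.sym v) w

lemma η_σ_σ (v w : H) : fr.η (p.σ v) (p.σ w) = fr.η v w := by rw [η_σ, p.inv]

lemma ext_right {v w : H} (h : ∀ u, fr.η u v = fr.η u w) : v = w := by
  rw [← fr.left v, ← fr.left w]; simp only [h]

lemma ext_left {v w : H} (h : ∀ u, fr.η v u = fr.η w u) : v = w :=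
  fr.ext_right fun u => by rw [η_symm, η_symm _ u, ← η_σ, ← η_σ, h]

lemma right (v : H) : ∑ a, fr.η v (fr.e a) • fr.f a = v := by
  refine fr.ext_left fun u => ?_
  conv_rhs => rw [← fr.left u]
  simp [map_sum, mul_comm]

/-- The symplectic form `Ω(y, y') = ∑ (-1)^j η(y_(-j-1), y'_j)`. -/
noncomputable def Ω : LL H →ₗ[K] Module.Dual K (LL H) :=
  Finsupp.lsum K fun i => (sg K (-i - 1) • fr.η).compl₂ (Finsupp.lapply (-i - 1))

lemma Ω_single_left (i : ℤ) (v : H) (y : LL H) :
    fr.Ω (Finsupp.single i v) y = sg K (-i - 1) * fr.η v (y (-i - 1)) := by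
  simp [Ω]

lemma Ω_single (i j : ℤ) (v w : H) : fr.Ω (Finsupp.single i v) (Finsupp.single j w) =
    if i + j + 1 = 0 then sg K j * fr.η v w else 0 := by
  rw [Ω_single_left]
  split_ifs with h
  · rw [show -i - 1 = j by omega, Finsupp.single_eq_same]
  · rw [Finsupp.single_eq_of_ne (by omega), map_zero, mul_zero]

lemma Ω_single_right (y : LL H) (j : ℤ) (w : H) :
    fr.Ω y (Finsupp.single j w) = sg K j * fr.η (y (-j - 1)) w := by
  induction y using Finsupp.induction_linear with
  | zero => simp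
  | add a b ha hb => simp [ha, hb, mul_add]
  | single i v =>
    rw [Ω_single]
    split_ifs with h
    · rw [show -j - 1 = i by omega, Finsupp.single_eq_same]
    · rw [Finsupp.single_eq_of_ne (by omega), map_zero, LinearMap.zero_apply, mul_zero]

lemma Ω_skew (y y' : LL H) : fr.Ω y y' = -fr.Ω ((p.fs ℤ).σ y') y := by
  induction y using Finsupp.induction_linear with
  | zero => simp
  | add a b ha hb => simp [ha, hb, add_comm]
  | single i v =>
    rw [Ω_single_left, Ω_single_right, Par.fs_σ, ← η_symm, sg_pred, sg_neg, neg_mul]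

lemma Ω_σ (y y' : LL H) : fr.Ω y ((p.fs ℤ).σ y') = fr.Ω ((p.fs ℤ).σ y) y' := by
  induction y using Finsupp.induction_linear with
  | zero => simp
  | add a b ha hb => simp [ha, hb]
  | single i v => rw [Par.fs_σ_single, Ω_single_left, Ω_single_left, Par.fs_σ, η_σ]

lemma Ω_up_up (v w : VV H) : fr.Ω (up K H v) (up K H w) = 0 := by
  induction v using Finsupp.induction_linear with
  | zero => simp
  | add a b ha hb => simp [ha, hb]
  | single i v => rw [up_single, Ω_single_left, up_apply_neg _ (by omega), map_zero, mul_zero]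

lemma Ω_of_pos_eq_zero {y : LL H} (hy : pos K H y = 0) (y' : LL H) :
    fr.Ω y (up K H (pos K H y')) = fr.Ω y y' := by
  induction y' using Finsupp.induction_linear with
  | zero => simp
  | add a b ha hb => simp [ha, hb]
  | single j w =>
    rcases lt_or_ge j 0 with hj | hj
    · have : y (-j - 1) = 0 := by
        have := DFunLike.congr_fun hy (-j - 1).toNat
        rwa [pos_apply, Int.toNat_of_nonneg (by omega)] at this
      rw [pos_single_neg hj, Ω_single_right, this]; simp
    · obtain ⟨m, rfl⟩ := Int.eq_ofNat_of_zero_le hj; simp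

lemma Ω_ext {y y' : LL H} (h : ∀ u, fr.Ω u y = fr.Ω u y') : y = y' := by
  ext j
  refine fr.ext_right fun u => ?_
  have := h (Finsupp.single (-j - 1) u)
  rw [Ω_single_left, Ω_single_left, show -(-j - 1) - 1 = j by ring] at this
  rw [← one_mul (fr.η u _), ← one_mul (fr.η u (y' j)), ← sg_mul_self j, mul_assoc, this, mul_assoc]

/-- The linear form on `H[z]` defined by a loop. -/
noncomputable def neg : LL H →ₗ[K] Module.Dual K (VV H) := fr.Ω.compl₂ (up K H)

lemma neg_apply (y : LL H) (v : VV H) : fr.neg y v = fr.Ω y (up K H v) := rfl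

@[simp] lemma neg_up (v : VV H) : fr.neg (up K H v) = 0 := by
  refine LinearMap.ext fun w => fr.Ω_up_up v w

lemma neg_comp_σ (y : LL H) : fr.neg y ∘ₗ (p.fs ℕ).σ = fr.neg ((p.fs ℤ).σ y) := by
  refine LinearMap.ext fun w => ?_
  rw [LinearMap.comp_apply, neg_apply, neg_apply, ← isEv_up, Ω_σ]

lemma neg_single (m : ℕ) (v : H) (w : VV H) :
    fr.neg (Finsupp.single (-(m : ℤ) - 1) v) w = (-1) ^ m * fr.η v (w m) := by
  rw [neg_apply, Ω_single_left, show -(-(m : ℤ) - 1) - 1 = m by ring, up_apply_nat, sg_nat]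

/-- The dilaton vector `1 · z`. -/
noncomputable def dil : VV H := Finsupp.single 1 fr.one

lemma σ_dil : (p.fs ℕ).σ fr.dil = fr.dil := by simp [dil, fr.hone]

/-- `B` is the adjoint of `A` for the symplectic form. -/
def Adj (A B : Module.End K (LL H)) : Prop := ∀ y y', fr.Ω (A y) y' = fr.Ω y (B y')

variable {fr}

lemma Adj.mul {A B A' B' : Module.End K (LL H)} (h : fr.Adj A B) (h' : fr.Adj A' B') :
    fr.Adj (A * A') (B' * B) := fun y y' => by
  rw [Module.End.mul_apply, h, h', Module.End.mul_apply]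

lemma Adj.add {A B A' B' : Module.End K (LL H)} (h : fr.Adj A B) (h' : fr.Adj A' B') :
    fr.Adj (A + A') (B + B') := fun y y' => by simp [h y y', h' y y']

lemma Adj.smul {A B : Module.End K (LL H)} (h : fr.Adj A B) (c : K) :
    fr.Adj (c • A) (c • B) := fun y y' => by simp [h y y']

lemma Adj.neg {A B : Module.End K (LL H)} (h : fr.Adj A B) : fr.Adj (-A) (-B) :=
  fun y y' => by simp [h y y']

lemma Adj.sub {A B A' B' : Module.End K (LL H)} (h : fr.Adj A B) (h' : fr.Adj A' B') :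
    fr.Adj (A - A') (B - B') := fun y y' => by simp [h y y', h' y y']

lemma Adj.one : fr.Adj 1 1 := fun _ _ => rfl

lemma Adj.zero : fr.Adj 0 0 := fun _ _ => by simp

lemma Adj.pow {A B : Module.End K (LL H)} (h : fr.Adj A B) (n : ℕ) : fr.Adj (A ^ n) (B ^ n) := by
  induction n with
  | zero => exact Adj.one
  | succ n ih => rw [pow_succ, pow_succ']; exact ih.mul h

lemma Adj.sum {α : Type*} (s : Finset α) {A B : α → Module.End K (LL H)}
    (h : ∀ a ∈ s, fr.Adj (A a) (B a)) : fr.Adj (∑ a ∈ s, A a) (∑ a ∈ s, B a) := fun y y' => by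
  simp only [LinearMap.sum_apply, map_sum]
  exact sum_congr rfl fun a ha => h a ha y y'

lemma Adj.unique {A B B' : Module.End K (LL H)} (h : fr.Adj A B) (h' : fr.Adj A B') : B = B' :=
  LinearMap.ext fun y => fr.Ω_ext fun u => by rw [← h, ← h']

lemma Adj.symm {A B : Module.End K (LL H)} (h : fr.Adj A B) (hA : IsEv (p.fs ℤ) (p.fs ℤ) A) :
    fr.Adj B A := fun y y' => by
  rw [Ω_skew, ← h, ← hA, ← Ω_σ, Ω_skew, (p.fs ℤ).inv, neg_neg]

variable (fr) in
/-- Quantisable operators: even, infinitesimally symplectic, with a finite mixing block. -/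
structure Quad (A : Module.End K (LL H)) : Prop where
  ev : IsEv (p.fs ℤ) (p.fs ℤ) A
  adj : fr.Adj A (-A)
  fin : ∃ N : ℕ, ∀ m : ℕ, N ≤ m → ∀ v, pos K H (A (Finsupp.single (-(m : ℤ) - 1) v)) = 0

lemma Quad.add {A B : Module.End K (LL H)} (hA : fr.Quad A) (hB : fr.Quad B) : fr.Quad (A + B) := by
  refine ⟨hA.ev.add hB.ev, by simpa [add_comm] using hA.adj.add hB.adj, ?_⟩
  obtain ⟨N, hN⟩ := hA.fin
  obtain ⟨M, hM⟩ := hB.fin
  exact ⟨max N M, fun m hm v => by
    rw [LinearMap.add_apply, map_add, hN m (le_of_max_le_left hm), hM m (le_of_max_le_right hm),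
      add_zero]⟩

lemma Quad.smul {A : Module.End K (LL H)} (hA : fr.Quad A) (c : K) : fr.Quad (c • A) := by
  refine ⟨hA.ev.smul c, by simpa using hA.adj.smul c, ?_⟩
  obtain ⟨N, hN⟩ := hA.fin
  exact ⟨N, fun m hm v => by rw [LinearMap.smul_apply, map_smul, hN m hm, smul_zero]⟩

lemma Quad.zero : fr.Quad 0 := ⟨IsEv.zero, by simpa using Adj.zero, 0, fun _ _ _ => by simp⟩

lemma Quad.neg {A : Module.End K (LL H)} (hA : fr.Quad A) : fr.Quad (-A) := by
  have e : -A = (-1 : K) • A := by ext; simp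
  exact e ▸ hA.smul (-1)

lemma Quad.sub {A B : Module.End K (LL H)} (hA : fr.Quad A) (hB : fr.Quad B) : fr.Quad (A - B) := by
  simpa [sub_eq_add_neg] using hA.add hB.neg

lemma Quad.sum {α : Type*} (s : Finset α) {A : α → Module.End K (LL H)}
    (h : ∀ a ∈ s, fr.Quad (A a)) : fr.Quad (∑ a ∈ s, A a) := by
  classical
  induction s using Finset.induction_on with
  | empty => simpa using Quad.zero
  | insert a s ha ih =>
    rw [sum_insert ha]
    exact (h a (mem_insert_self _ _)).add (ih fun b hb => h b (mem_insert_of_mem hb))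

/-- The positive block. -/
noncomputable def blk (A : Module.End K (LL H)) : Module.End K (VV H) := pos K H ∘ₗ A ∘ₗ up K H

lemma Quad.isEv_blk {A : Module.End K (LL H)} (hA : fr.Quad A) : IsEv (p.fs ℕ) (p.fs ℕ) (blk A) :=
  (isEv_pos p).comp (hA.ev.comp (isEv_up p))

lemma Quad.mem_symB {A : Module.End K (LL H)} (hA : fr.Quad A) :
    fr.neg ∘ₗ A ∘ₗ up K H ∈ SymB (p.fs ℕ) := fun v w => by
  simp only [LinearMap.comp_apply, neg_apply]
  rw [hA.adj, LinearMap.neg_apply, map_neg, Ω_skew, neg_neg, hA.ev, isEv_up]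

variable [Algebra ℚ K] (fr)

/-- The Heisenberg representation. -/
noncomputable def h : LL H →ₗ[K] Module.End K (S (p.fs ℕ)) :=
  LinearMap.mul K _ ∘ₗ Fock.ι _ ∘ₗ pos K H + con _ ∘ₗ fr.neg -
    (fr.neg.flip fr.dil).smulRight 1

lemma h_apply (y : LL H) (x : S (p.fs ℕ)) :
    fr.h y x = Fock.ι _ (pos K H y) * x + con _ (fr.neg y) x - fr.neg y fr.dil • x := rfl

@[simp] lemma h_up (v : VV H) (x : S (p.fs ℕ)) : fr.h (up K H v) x = Fock.ι _ v * x := by
  simp [h_apply]

lemma h_up' (v : VV H) : fr.h (up K H v) = LinearMap.mulLeft K (Fock.ι _ v) := by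
  ext x; simp

lemma h_of_pos_eq_zero {y : LL H} (hy : pos K H y = 0) (x : S (p.fs ℕ)) :
    fr.h y x = con _ (fr.neg y) x - fr.neg y fr.dil • x := by simp [h_apply, hy]

/-- One term of the Casimir element. -/
noncomputable def casT (A : Module.End K (LL H)) (m : ℕ) : S (p.fs ℕ) :=
  ∑ a, (-1 : K) ^ (m + 1) • (Fock.ι _ (Finsupp.single m (fr.e a)) *
    Fock.ι _ (pos K H (A (Finsupp.single (-(m : ℤ) - 1) (fr.f a)))))

/-- The Casimir element of `A`. -/
noncomputable def cas (A : Module.End K (LL H)) : S (p.fs ℕ) := Fock.hf K • ∑ᶠ m, fr.casT A m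

open Classical in
/-- The quadratic form of `A`. -/
noncomputable def qf (A : Module.End K (LL H)) : SymB (p.fs ℕ) :=
  if h : fr.neg ∘ₗ A ∘ₗ up K H ∈ SymB (p.fs ℕ) then ⟨_, h⟩ else 0

/-- The normally ordered quantisation. -/
noncomputable def qz (A : Module.End K (LL H)) : Module.End K (S (p.fs ℕ)) :=
  dv _ (blk A) - LinearMap.mulLeft K (Fock.ι _ (blk A fr.dil)) + con2 _ (fr.qf A) -
    con _ (fr.neg (A (up K H fr.dil))) + LinearMap.mulLeft K (fr.cas A)

lemma qz_apply (A : Module.End K (LL H)) (x : S (p.fs ℕ)) : fr.qz A x =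
    dv _ (blk A) x - Fock.ι _ (blk A fr.dil) * x + con2 _ (fr.qf A) x -
      con _ (fr.neg (A (up K H fr.dil))) x + fr.cas A * x := rfl

variable {fr}

omit [Algebra ℚ K] in
lemma Quad.qf_val {A : Module.End K (LL H)} (hA : fr.Quad A) (v : VV H) :
    (fr.qf A).1 v = fr.neg (A (up K H v)) := by
  rw [qf, dif_pos hA.mem_symB]; rfl

lemma cas_eq {A : Module.End K (LL H)} {N : ℕ}
    (hN : ∀ m : ℕ, N ≤ m → ∀ v, pos K H (A (Finsupp.single (-(m : ℤ) - 1) v)) = 0) :
    fr.cas A = Fock.hf K • ∑ m ∈ range N, fr.casT A m := by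
  rw [cas, finsum_eq_sum_of_support_subset]
  intro m hm
  by_contra hlt
  refine hm ?_
  simp [casT, hN m (by simpa using hlt)]

omit [Algebra ℚ K] in
lemma par_casT {A : Module.End K (LL H)} (hA : IsEv (p.fs ℤ) (p.fs ℤ) A) (m : ℕ) :
    par _ (fr.casT A m) = fr.casT A m := by
  rw [casT, map_sum]
  refine sum_congr rfl fun a _ => ?_
  rw [map_smul, map_mul, par_ι, par_ι, isEv_pos, hA, Par.fs_σ_single, Par.fs_σ_single, fr.he,
    fr.hf, ← Finsupp.smul_single, ← Finsupp.smul_single, map_smul, map_smul, map_smul, map_smul,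
    smul_mul_smul_comm, neg_one_pow_mul_self, one_smul]

lemma Quad.par_cas {A : Module.End K (LL H)} (hA : fr.Quad A) : par _ (fr.cas A) = fr.cas A := by
  obtain ⟨N, hN⟩ := hA.fin
  rw [cas_eq hN, map_smul, map_sum]
  simp only [par_casT hA.ev]

omit [Algebra ℚ K] in
@[simp] lemma aug_casT (A : Module.End K (LL H)) (m : ℕ) : aug _ (fr.casT A m) = 0 := by
  simp [casT, map_sum]

lemma Quad.aug_cas {A : Module.End K (LL H)} (hA : fr.Quad A) : aug _ (fr.cas A) = 0 := by
  obtain ⟨N, hN⟩ := hA.fin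
  simp [cas_eq hN, map_sum]

lemma qz_one (A : Module.End K (LL H)) : fr.qz A 1 = fr.cas A - Fock.ι _ (blk A fr.dil) := by
  simp [qz_apply]; abel

lemma Quad.aug_qz_one {A : Module.End K (LL H)} (hA : fr.Quad A) : aug _ (fr.qz A 1) = 0 := by
  simp [qz_one, hA.aug_cas]

lemma con_ι_ι {V : Type*} [AddCommGroup V] [Module K V] {q : Par K V} (φ : Module.Dual K V)
    {u w : V} {n : ℕ} (hu : q.σ u = (-1 : K) ^ n • u) (hw : q.σ w = (-1 : K) ^ n • w) :
    con q φ (Fock.ι q u * Fock.ι q w) = φ u • Fock.ι q w + ((-1) ^ n * φ w) • Fock.ι q u := by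
  rcases Nat.even_or_odd n with hn | hn
  · rw [hn.neg_one_pow, one_smul] at hu
    rw [con_ι_mul_ev _ hu, con_ι, hn.neg_one_pow, one_mul, ← Algebra.commutes, ← Algebra.smul_def]
  · rw [hn.neg_one_pow, neg_smul, one_smul] at hu hw
    rw [con_ι_mul_od _ hu, con_ι, hn.neg_one_pow, ← Algebra.commutes, ← Algebra.smul_def,
      LinearMap.comp_apply, hw]
    simp

lemma Quad.con_casT {A : Module.End K (LL H)} (hA : fr.Quad A) {y : LL H} (hy : pos K H y = 0)
    (m : ℕ) : con _ (fr.neg y) (fr.casT A m) =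
      -Fock.ι _ (pos K H (A (Finsupp.single (-(m : ℤ) - 1) (y (-(m : ℤ) - 1))))) -
        Fock.ι _ (Finsupp.single m (A y m)) := by
  have e : ∀ a, con _ (fr.neg y) ((-1 : K) ^ (m + 1) • (Fock.ι _ (Finsupp.single m (fr.e a)) *
      Fock.ι (p.fs ℕ) (pos K H (A (Finsupp.single (-(m : ℤ) - 1) (fr.f a)))))) =
      -(fr.η (y (-(m : ℤ) - 1)) (fr.e a) •
        Fock.ι _ (pos K H (A (Finsupp.single (-(m : ℤ) - 1) (fr.f a))))) -
      fr.η (fr.f a) (A y m) • Fock.ι _ (Finsupp.single m (fr.e a)) := by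
    intro a
    have h1 : (p.fs ℤ).σ (Finsupp.single (-(m : ℤ) - 1) (fr.f a)) =
        (-1 : K) ^ fr.π a • Finsupp.single (-(m : ℤ) - 1) (fr.f a) := by
      rw [Par.fs_σ_single, fr.hf, Finsupp.smul_single]
    rw [map_smul, con_ι_ι (n := fr.π a) _ (by rw [Par.fs_σ_single, fr.he, Finsupp.smul_single])
      (by rw [isEv_pos, hA.ev, h1, map_smul, map_smul]), neg_apply, neg_apply,
      fr.Ω_of_pos_eq_zero hy, up_single, Ω_single_right, sg_nat]
    have h2 : fr.Ω y (A (Finsupp.single (-(m : ℤ) - 1) (fr.f a))) =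
        (-1) ^ fr.π a * ((-1) ^ m * fr.η (fr.f a) (A y m)) := by
      have := hA.adj y (Finsupp.single (-(m : ℤ) - 1) (fr.f a))
      rw [LinearMap.neg_apply, map_neg, Ω_skew, neg_inj, h1, map_smul, LinearMap.smul_apply,
        Ω_single_left, show -(-(m : ℤ) - 1) - 1 = m by ring, sg_nat, smul_eq_mul] at this
      exact this.symm
    have h3 : ∀ t : K, (-1) ^ (m + 1) * ((-1) ^ m * t) = -t := fun t => by
      rw [pow_succ]; linear_combination (-t) * neg_one_pow_mul_self (K := K) m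
    rw [h2, ← mul_assoc ((-1 : K) ^ fr.π a), neg_one_pow_mul_self, one_mul, smul_add, smul_smul,
      smul_smul, h3, h3]
    simp [sub_eq_add_neg]
  rw [casT, map_sum, sum_congr rfl fun a _ => e a, sum_sub_distrib, sum_neg_distrib]
  congr 2
  · conv_rhs => rw [← fr.right (y _)]
    simp only [Finsupp.single_finsetSum, map_sum, ← Finsupp.smul_single, map_smul]
  · conv_rhs => rw [← fr.left (A y m)]
    simp only [Finsupp.single_finsetSum, map_sum, ← Finsupp.smul_single, map_smul]

omit [Algebra ℚ K] in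
lemma sum_single_neg {y : LL H} (hy : pos K H y = 0) :
    ∃ N : ℕ, ∀ M, N ≤ M → ∑ m ∈ range M, Finsupp.single (-(m : ℤ) - 1) (y (-(m : ℤ) - 1)) = y := by
  refine ⟨y.support.sup fun j => j.natAbs, fun M hM => ?_⟩
  ext j
  rw [Finsupp.finsetSum_apply]
  rcases lt_or_ge j 0 with hj | hj
  · rw [sum_eq_single (-j - 1).toNat]
    · rw [Int.toNat_of_nonneg (by omega), show -(-j - 1) - 1 = j by ring, Finsupp.single_eq_same]
    · intro m _ hm; exact Finsupp.single_eq_of_ne (by omega)
    · intro hm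
      have : y j = 0 := by
        by_contra h0
        have := Finset.le_sup (f := fun j : ℤ => j.natAbs) (Finsupp.mem_support_iff.mpr h0)
        simp only [mem_range] at hm this
        omega
      rw [Int.toNat_of_nonneg (by omega), show -(-j - 1) - 1 = j by ring, this]; simp
  · obtain ⟨n, rfl⟩ := Int.eq_ofNat_of_zero_le hj
    rw [sum_eq_zero fun m _ => Finsupp.single_eq_of_ne (by omega)]
    exact (DFunLike.congr_fun hy n).symm

omit [Algebra ℚ K] in
lemma sum_single_range (v : VV H) :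
    ∃ N : ℕ, ∀ M, N ≤ M → ∑ m ∈ range M, Finsupp.single m (v m) = v := by
  refine ⟨v.support.sup id + 1, fun M hM => ?_⟩
  conv_rhs => rw [← Finsupp.sum_single v]
  refine (Finsupp.sum_of_support_subset _ (fun j hj => ?_) _ (by simp)).symm
  have := Finset.le_sup (f := id) hj
  simp only [id, mem_range] at this ⊢
  omega

lemma Quad.con_cas {A : Module.End K (LL H)} (hA : fr.Quad A) {y : LL H} (hy : pos K H y = 0) :
    con _ (fr.neg y) (fr.cas A) = -Fock.ι _ (pos K H (A y)) := by
  obtain ⟨N, hN⟩ := hA.fin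
  obtain ⟨N1, h1⟩ := sum_single_neg hy
  obtain ⟨N2, h2⟩ := sum_single_range (pos K H (A y))
  set M := max N (max N1 N2)
  rw [cas_eq (N := M) fun m hm => hN m (le_of_max_le_left hm), map_smul, map_sum]
  simp only [hA.con_casT hy]
  rw [sum_sub_distrib, sum_neg_distrib, ← map_sum, ← map_sum, ← map_sum, ← map_sum,
    h1 M (by omega)]
  simp only [← pos_apply (K := K) (A y)]
  rw [h2 M (by omega), sub_eq_add_neg, smul_add, ← add_smul, hf_add, one_smul]

/-- The normally ordered quantisation is a quantisation. -/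
theorem Quad.isQ {A : Module.End K (LL H)} (hA : fr.Quad A) : IsQ fr.h (fr.qz A) A := by
  have hd : (p.fs ℕ).σ (blk A fr.dil) = blk A fr.dil := by rw [hA.isEv_blk, σ_dil]
  have hd' : fr.neg (A (up K H fr.dil)) ∘ₗ (p.fs ℕ).σ = fr.neg (A (up K H fr.dil)) := by
    rw [neg_comp_σ, hA.ev, isEv_up, σ_dil]
  have hpos : ∀ v, fr.qz A * fr.h (up K H v) - fr.h (up K H v) * fr.qz A = fr.h (A (up K H v)) := by
    intro v
    ext x
    have e := hA.mem_symB v fr.dil
    simp only [LinearMap.comp_apply, σ_dil] at e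
    simp only [LinearMap.sub_apply, Module.End.mul_apply, h_up, qz_apply, dv_ι_mul hA.isEv_blk,
      con2_ι_mul, con_ι_mul_of_ev hd', hA.qf_val, mul_add, mul_sub]
    rw [h_apply, e, ← mul_assoc, ← mul_assoc, ← mul_assoc, ← mul_assoc, ι_comm_ev hd,
      comm_ev hA.par_cas]
    simp only [blk, LinearMap.comp_apply]
    abel
  have hneg : ∀ y, pos K H y = 0 → fr.qz A * fr.h y - fr.h y * fr.qz A = fr.h (A y) := by
    intro y hy
    ext x
    have e : fr.neg (A y) = -(fr.neg y ∘ₗ blk A) := by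
      refine LinearMap.ext fun v => ?_
      rw [neg_apply, hA.adj, LinearMap.neg_apply, LinearMap.neg_apply, LinearMap.comp_apply,
        neg_apply, blk, LinearMap.comp_apply, fr.Ω_of_pos_eq_zero hy, map_neg, LinearMap.comp_apply]
    simp only [LinearMap.sub_apply, Module.End.mul_apply, fr.h_of_pos_eq_zero hy, qz_apply,
      map_sub, map_add, map_smul, dv_con hA.isEv_blk, con_ι_mul_ev _ hd, con2_con,
      con_con_ev hd', con_mul_ev _ hA.par_cas, hA.con_cas hy, mul_smul_comm, smul_sub,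
      smul_add]
    rw [h_apply, e]
    simp only [map_neg, LinearMap.neg_apply, LinearMap.comp_apply, neg_smul, neg_mul]
    abel
  intro y
  have e : y = up K H (pos K H y) + (y - up K H (pos K H y)) := by abel
  rw [e, map_add, map_add, map_add, ← hpos, ← hneg _ (by simp), mul_add, add_mul]
  abel

variable (fr)

omit [Algebra ℚ K] in
lemma sameP (m : ℕ) (a : ι) : SameP (p.fs ℕ) (Finsupp.single m (fr.e a))
    (fr.neg (Finsupp.single (-(m : ℤ) - 1) ((-1 : K) ^ m • fr.f a))) := by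
  rcases Nat.even_or_odd (fr.π a) with hn | hn
  · left
    rw [neg_comp_σ, Par.fs_σ_single, Par.fs_σ_single, map_smul, fr.he, fr.hf, hn.neg_one_pow]
    simp
  · right
    rw [neg_comp_σ, Par.fs_σ_single, Par.fs_σ_single, map_smul, fr.he, fr.hf, hn.neg_one_pow]
    simp

lemma sep : Sep (p.fs ℕ) {φ | ∃ y, pos K H y = 0 ∧ φ = fr.neg y} := by
  intro x
  let π : ℕ → Module.End K (VV H) := fun N => ∑ m ∈ range N, ∑ a,
    (fr.neg (Finsupp.single (-(m : ℤ) - 1) ((-1 : K) ^ m • fr.f a))).smulRight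
      (Finsupp.single m (fr.e a))
  have := eventually_dv_eq (p := p.fs ℕ) (l := Filter.atTop) (π := π) (a := 1)
    (fun N => IsEv.sum _ fun m _ => IsEv.sum _ fun a _ => (fr.sameP m a).isEv) IsEv.one (by
      intro v
      obtain ⟨N, hN⟩ := sum_single_range v
      filter_upwards [Filter.eventually_ge_atTop N] with M hM
      rw [Module.End.one_apply]
      conv_rhs => rw [← hN M hM]
      simp only [π, LinearMap.sum_apply, LinearMap.smulRight_apply, neg_single]
      refine sum_congr rfl fun m _ => ?_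
      conv_rhs => rw [← fr.left (v m)]
      rw [Finsupp.single_finsetSum]
      refine sum_congr rfl fun a _ => ?_
      rw [map_smul, LinearMap.smul_apply, smul_eq_mul, ← mul_assoc, neg_one_pow_mul_self, one_mul,
        Finsupp.smul_single]) x
  obtain ⟨N, hN⟩ := this.exists
  rw [← hN]
  simp only [π, map_sum, LinearMap.sum_apply]
  refine Submodule.sum_mem _ fun m _ => Submodule.sum_mem _ fun a _ => ?_
  rw [dv_smulRight (fr.sameP m a)]
  exact Submodule.subset_span ⟨_, _, ⟨_, pos_single_neg (by omega) _, rfl⟩, rfl⟩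

variable {fr}

/-- Schur lemma. -/
theorem schur {X : Module.End K (S (p.fs ℕ))} (hX : IsQ fr.h X 0) : X = aug _ (X 1) • 1 := by
  have h1 : X 1 = algebraMap K _ (aug _ (X 1)) := by
    refine fr.sep.eq_algebraMap ?_
    rintro _ ⟨y, hy, rfl⟩
    have := hX.apply y 1
    simp only [fr.h_of_pos_eq_zero hy, con_one, zero_sub, map_neg, map_smul, LinearMap.zero_apply,
      map_zero, add_zero] at this
    rwa [eq_sub_iff_add_eq, neg_add_cancel, eq_comm] at this
  refine lin_ext (by simpa [Algebra.algebraMap_eq_smul_one] using h1) fun v x hx => ?_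
  have := hX.apply (up K H v) x
  simp only [h_up, LinearMap.zero_apply, map_zero, add_zero] at this
  rw [this, hx]; simp

theorem Quad.eq_qz {A : Module.End K (LL H)} (hA : fr.Quad A) {X : Module.End K (S (p.fs ℕ))}
    (hX : IsQ fr.h X A) : X = fr.qz A + aug _ (X 1) • 1 := by
  have := schur (X := X - fr.qz A) (by simpa using hX.sub hA.isQ)
  rw [LinearMap.sub_apply, map_sub, hA.aug_qz_one, sub_zero, sub_eq_iff_eq_add'] at this
  exact this

theorem Quad.kill_iff {A : Module.End K (LL H)} (hA : fr.Quad A) {M : Type*} [AddCommGroup M]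
    [Module K M] {Z : S (p.fs ℕ) →ₗ[K] M} :
    Kill fr.h Z A ↔ ∃ c : K, Z ∘ₗ (fr.qz A + c • 1) = 0 :=
  ⟨fun ⟨_, hX, h0⟩ => ⟨_, hA.eq_qz hX ▸ h0⟩, fun ⟨c, h0⟩ => ⟨_, hA.isQ.add_const c, h0⟩⟩

lemma Quad.qz_add {A B : Module.End K (LL H)} (hA : fr.Quad A) (hB : fr.Quad B) :
    fr.qz (A + B) = fr.qz A + fr.qz B := by
  rw [(hA.add hB).eq_qz (hA.isQ.add hB.isQ)]
  simp [hA.aug_qz_one, hB.aug_qz_one]

lemma Quad.qz_smul {A : Module.End K (LL H)} (hA : fr.Quad A) (c : K) :
    fr.qz (c • A) = c • fr.qz A := by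
  rw [(hA.smul c).eq_qz (hA.isQ.smul c)]
  simp [hA.aug_qz_one]

end Frame

end Vale.Agent.P269.Fock
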