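import Mathlib.Algebra.RingQuot
import Mathlib.LinearAlgebra.TensorAlgebra.Basic
import Mathlib.LinearAlgebra.Dual.Lemmas
import Mathlib.Algebra.Algebra.Bilinear
import Mathlib.Tactic

/-! The free supercommutative algebra `S p` on a module with a parity involution `p`. -/

namespace Vale.Agent.P269.Fock

/-- One half. -/
noncomputable def hf (K : Type*) [CommRing K] [Algebra ℚ K] : K := algebraMap ℚ K (1 / 2)

lemma hf_add (K : Type*) [CommRing K] [Algebra ℚ K] : hf K + hf K = 1 := by
  rw [hf, ← map_add]; norm_num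

/-- A parity involution. -/
structure Par (K V : Type*) [CommRing K] [AddCommGroup V] [Module K V] where
  σ : V →ₗ[K] V
  inv : ∀ v, σ (σ v) = v

variable {K : Type*} [CommRing K] {V W : Type*} [AddCommGroup V] [Module K V]
  [AddCommGroup W] [Module K W]

namespace Par

/-- The purely even parity. -/
def triv (K V : Type*) [CommRing K] [AddCommGroup V] [Module K V] : Par K V :=
  ⟨LinearMap.id, fun _ => rfl⟩

/-- The parity on linear maps. -/
def hom (p : Par K V) (q : Par K W) : Par K (V →ₗ[K] W) where
  σ := (LinearMap.llcomp K V W W q.σ).comp (LinearMap.lcomp K W p.σ)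
  inv f := by ext v; simp [p.inv, q.inv]

@[simp] lemma hom_σ (p : Par K V) (q : Par K W) (f : V →ₗ[K] W) (v : V) :
    (p.hom q).σ f v = q.σ (f (p.σ v)) := rfl

/-- The parity on a product. -/
def prod (p : Par K V) (q : Par K W) : Par K (V × W) where
  σ := p.σ.prodMap q.σ
  inv f := by ext <;> simp [p.inv, q.inv]

@[simp] lemma prod_σ (p : Par K V) (q : Par K W) (x : V × W) :
    (p.prod q).σ x = (p.σ x.1, q.σ x.2) := rfl

/-- The opposite parity. -/
def opp (p : Par K V) : Par K V where
  σ := -p.σ
  inv v := by simp [p.inv]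

variable [Algebra ℚ K] (p : Par K V)

/-- The even part. -/
noncomputable def ev : V →ₗ[K] V := hf K • (LinearMap.id + p.σ)

/-- The odd part. -/
noncomputable def od : V →ₗ[K] V := hf K • (LinearMap.id - p.σ)

lemma ev_apply (v : V) : p.ev v = hf K • (v + p.σ v) := rfl

lemma od_apply (v : V) : p.od v = hf K • (v - p.σ v) := rfl

lemma ev_add_od (v : V) : p.ev v + p.od v = v := by
  rw [ev_apply, od_apply, ← smul_add, add_add_sub_cancel, smul_add, ← add_smul, hf_add, one_smul]

lemma ev_sub_od (v : V) : p.ev v - p.od v = p.σ v := by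
  rw [ev_apply, od_apply, ← smul_sub, add_sub_sub_cancel, smul_add, ← add_smul, hf_add, one_smul]

@[simp] lemma σ_ev (v : V) : p.σ (p.ev v) = p.ev v := by
  rw [ev_apply, map_smul, map_add, p.inv, add_comm]

@[simp] lemma σ_od (v : V) : p.σ (p.od v) = -p.od v := by
  rw [od_apply, map_smul, map_sub, p.inv, ← smul_neg, neg_sub]

variable {p}

lemma ev_of_ev {v : V} (h : p.σ v = v) : p.ev v = v := by
  rw [ev_apply, h, smul_add, ← add_smul, hf_add, one_smul]

lemma od_of_ev {v : V} (h : p.σ v = v) : p.od v = 0 := by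
  rw [od_apply, h, sub_self, smul_zero]

lemma ev_of_od {v : V} (h : p.σ v = -v) : p.ev v = 0 := by
  rw [ev_apply, h, add_neg_cancel, smul_zero]

lemma od_of_od {v : V} (h : p.σ v = -v) : p.od v = v := by
  rw [od_apply, h, sub_neg_eq_add, smul_add, ← add_smul, hf_add, one_smul]

variable (p)

lemma induction {P : V → Prop} (hev : ∀ v, p.σ v = v → P v) (hod : ∀ v, p.σ v = -v → P v)
    (hadd : ∀ v w, P v → P w → P (v + w)) (v : V) : P v := by
  rw [← p.ev_add_od v]
  exact hadd _ _ (hev _ (p.σ_ev v)) (hod _ (p.σ_od v))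

end Par

lemma eq_zero_of_eq_neg [Algebra ℚ K] {v : V} (h : v = -v) : v = 0 := by
  have : (hf K + hf K) • v = 0 := by
    rw [add_smul, ← smul_add]
    nth_rewrite 2 [h]
    rw [add_neg_cancel, smul_zero]
  rwa [hf_add, one_smul] at this

/-- `f` satisfies the supercommutation relations. -/
structure SC (p : Par K V) {A : Type*} [Ring A] [Algebra K A] (f : V →ₗ[K] A) : Prop where
  ev : ∀ v w, p.σ w = w → f w * f v = f v * f w
  od : ∀ v w, p.σ v = -v → p.σ w = -w → f v * f w = -(f w * f v)

/-- The defining relations. -/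
inductive Rel (p : Par K V) : TensorAlgebra K V → TensorAlgebra K V → Prop
  | ev (v w : V) (h : p.σ w = w) : Rel p (TensorAlgebra.ι K w * TensorAlgebra.ι K v)
      (TensorAlgebra.ι K v * TensorAlgebra.ι K w)
  | od (v w : V) (hv : p.σ v = -v) (hw : p.σ w = -w) :
      Rel p (TensorAlgebra.ι K v * TensorAlgebra.ι K w)
        (-(TensorAlgebra.ι K w * TensorAlgebra.ι K v))

/-- The free supercommutative algebra. -/
def S (p : Par K V) : Type _ := RingQuot (Rel p)

noncomputable instance (p : Par K V) : Ring (S p) := inferInstanceAs (Ring (RingQuot (Rel p)))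

noncomputable instance (p : Par K V) : Algebra K (S p) :=
  inferInstanceAs (Algebra K (RingQuot (Rel p)))

variable (p : Par K V)

/-- The quotient map from the tensor algebra. -/
noncomputable def mkS : TensorAlgebra K V →ₐ[K] S p := RingQuot.mkAlgHom K (Rel p)

/-- The generators. -/
noncomputable def ι : V →ₗ[K] S p := (mkS p).toLinearMap ∘ₗ TensorAlgebra.ι K

lemma ι_apply (v : V) : ι p v = mkS p (TensorAlgebra.ι K v) := rfl

lemma sc_ι : SC p (ι p) := by
  constructor
  · intro v w h
    have := RingQuot.mkAlgHom_rel K (Rel.ev (p := p) v w h)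
    rw [map_mul, map_mul] at this
    exact this
  · intro v w hv hw
    have := RingQuot.mkAlgHom_rel K (Rel.od (p := p) v w hv hw)
    rw [map_mul, map_neg, map_mul] at this
    exact this

section lift

variable {p} {A : Type*} [Ring A] [Algebra K A]

/-- The universal property. -/
noncomputable def lift (f : V →ₗ[K] A) (h : SC p f) : S p →ₐ[K] A :=
  RingQuot.liftAlgHom K ⟨TensorAlgebra.lift K f, by
    intro x y r
    cases r with
    | ev v w hw => simpa using h.ev v w hw
    | od v w hv hw => simpa using h.od v w hv hw⟩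

@[simp] lemma lift_ι (f : V →ₗ[K] A) (h : SC p f) (v : V) : lift f h (ι p v) = f v := by
  have := RingQuot.liftAlgHom_mkAlgHom_apply K (TensorAlgebra.lift K f) (s := Rel p) (by
    intro x y r
    cases r with
    | ev v w hw => simpa using h.ev v w hw
    | od v w hv hw => simpa using h.od v w hv hw) (TensorAlgebra.ι K v)
  rw [TensorAlgebra.lift_ι_apply] at this
  exact this

end lift

variable {p}

/-- Induction by left multiplication with generators. -/
@[elab_as_elim]
lemma induction {P : S p → Prop} (x : S p) (h1 : P 1) (hι : ∀ v x, P x → P (ι p v * x))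
    (hadd : ∀ x y, P x → P y → P (x + y)) (hsmul : ∀ (c : K) x, P x → P (c • x)) : P x := by
  obtain ⟨t, rfl⟩ := RingQuot.mkAlgHom_surjective K (Rel p) x
  have : ∀ y, P y → P (mkS p t * y) := by
    induction t using TensorAlgebra.induction with
    | algebraMap r =>
      intro y hy
      rw [AlgHom.commutes, ← Algebra.smul_def]
      exact hsmul _ _ hy
    | ι v => exact fun y hy => hι v y hy
    | mul a b ha hb =>
      intro y hy
      rw [map_mul, mul_assoc]
      exact ha _ (hb _ hy)
    | add a b ha hb =>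
      intro y hy
      rw [map_add, add_mul]
      exact hadd _ _ (ha _ hy) (hb _ hy)
  have h := this 1 h1
  rw [mul_one] at h
  exact h

lemma hom_ext {A : Type*} [Semiring A] [Algebra K A] {f g : S p →ₐ[K] A}
    (h : ∀ v, f (ι p v) = g (ι p v)) : f = g := by
  ext x
  induction x using induction with
  | h1 => simp
  | hι v x hx => rw [map_mul, map_mul, h, hx]
  | hadd x y hx hy => rw [map_add, map_add, hx, hy]
  | hsmul c x hx => rw [map_smul, map_smul, hx]

/-- Two linear maps with the same value at `1` and the same recursion agree. -/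
lemma lin_ext {N : Type*} [AddCommGroup N] [Module K N] {f g : S p →ₗ[K] N} (h1 : f 1 = g 1)
    (h : ∀ v x, f x = g x → f (ι p v * x) = g (ι p v * x)) : f = g := by
  ext x
  induction x using induction with
  | h1 => exact h1
  | hι v x hx => exact h v x hx
  | hadd x y hx hy => rw [map_add, map_add, hx, hy]
  | hsmul c x hx => rw [map_smul, map_smul, hx]

/-- Induction by left multiplication with homogeneous generators. -/
@[elab_as_elim]
lemma induction' [Algebra ℚ K] {P : S p → Prop} (x : S p) (h1 : P 1)
    (hev : ∀ v x, p.σ v = v → P x → P (ι p v * x))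
    (hod : ∀ v x, p.σ v = -v → P x → P (ι p v * x))
    (hadd : ∀ x y, P x → P y → P (x + y)) (hsmul : ∀ (c : K) x, P x → P (c • x)) : P x := by
  refine induction x h1 (fun v x hx => ?_) hadd hsmul
  rw [← p.ev_add_od v, map_add, add_mul]
  exact hadd _ _ (hev _ _ (p.σ_ev v) hx) (hod _ _ (p.σ_od v) hx)

/-- Even linear maps. -/
def IsEv (p : Par K V) (q : Par K W) (f : V →ₗ[K] W) : Prop := ∀ v, q.σ (f v) = f (p.σ v)

lemma SC.comp {q : Par K W} {A : Type*} [Ring A] [Algebra K A] {g : W →ₗ[K] A} (hg : SC q g)
    {f : V →ₗ[K] W} (hf : IsEv p q f) : SC p (g ∘ₗ f) := by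
  constructor
  · intro v w h
    exact hg.ev _ _ (by rw [hf, h])
  · intro v w hv hw
    exact hg.od _ _ (by rw [hf, hv, map_neg]) (by rw [hf, hw, map_neg])

/-- Functoriality. -/
noncomputable def map {q : Par K W} (f : V →ₗ[K] W) (h : IsEv p q f) : S p →ₐ[K] S q :=
  lift (ι q ∘ₗ f) ((sc_ι q).comp h)

@[simp] lemma map_ι {q : Par K W} (f : V →ₗ[K] W) (h : IsEv p q f) (v : V) :
    map f h (ι p v) = ι q (f v) := lift_ι _ _ _

variable (p)

/-- The parity automorphism. -/
noncomputable def par : S p →ₐ[K] S p := map p.σ fun _ => rfl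

@[simp] lemma par_ι (v : V) : par p (ι p v) = ι p (p.σ v) := map_ι _ _ _

@[simp] lemma par_par (x : S p) : par p (par p x) = x := by
  have : (par p).comp (par p) = AlgHom.id K _ := hom_ext fun v => by simp [p.inv]
  exact DFunLike.congr_fun this x

/-- The parity of `S p`. -/
noncomputable def parS : Par K (S p) := ⟨(par p).toLinearMap, par_par p⟩

@[simp] lemma parS_σ (x : S p) : (parS p).σ x = par p x := rfl

/-- The augmentation. -/
noncomputable def aug : S p →ₐ[K] K := lift 0 ⟨fun _ _ _ => rfl, fun _ _ _ _ => by simp⟩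

@[simp] lemma aug_ι (v : V) : aug p (ι p v) = 0 := lift_ι _ _ _

@[simp] lemma aug_par (x : S p) : aug p (par p x) = aug p x := by
  have : (aug p).comp (par p) = aug p := hom_ext fun v => by simp
  exact DFunLike.congr_fun this x

variable {p}

lemma par_map {q : Par K W} (f : V →ₗ[K] W) (h : IsEv p q f) (x : S p) :
    par q (map f h x) = map f h (par p x) := by
  have : (par q).comp (map f h) = (map f h).comp (par p) := hom_ext fun v => by simp [h v]
  exact DFunLike.congr_fun this x

@[simp] lemma aug_map {q : Par K W} (f : V →ₗ[K] W) (h : IsEv p q f) (x : S p) :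
    aug q (map f h x) = aug p x := by
  have : (aug q).comp (map f h) = aug p := hom_ext fun v => by simp
  exact DFunLike.congr_fun this x

lemma ι_comm_ev {w : V} (h : p.σ w = w) (x : S p) : ι p w * x = x * ι p w := by
  induction x using induction with
  | h1 => simp
  | hι v x hx => rw [← mul_assoc, (sc_ι p).ev v w h, mul_assoc, hx, mul_assoc]
  | hadd x y hx hy => rw [mul_add, add_mul, hx, hy]
  | hsmul c x hx => rw [mul_smul_comm, smul_mul_assoc, hx]

variable [Algebra ℚ K]

lemma ι_comm_od {w : V} (h : p.σ w = -w) (x : S p) : ι p w * x = par p x * ι p w := by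
  induction x using induction' with
  | h1 => simp
  | hev v x hv hx =>
    rw [← mul_assoc, ← ι_comm_ev hv, mul_assoc, hx, map_mul, par_ι, hv, mul_assoc]
  | hod v x hv hx =>
    rw [← mul_assoc, (sc_ι p).od w v h hv, neg_mul, mul_assoc, hx, map_mul, par_ι, hv, map_neg,
      neg_mul, neg_mul, mul_assoc]
  | hadd x y hx hy => rw [mul_add, map_add, add_mul, hx, hy]
  | hsmul c x hx => rw [mul_smul_comm, map_smul, smul_mul_assoc, hx]

lemma ι_comm_od' {w : V} (h : p.σ w = -w) (x : S p) : ι p w * par p x = x * ι p w := by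
  rw [ι_comm_od h, par_par]

lemma ev_mul_ev {x : S p} (h : par p x = x) (y : S p) :
    (parS p).ev (x * y) = x * (parS p).ev y := by
  simp only [Par.ev_apply, parS_σ, map_mul, h, mul_smul_comm, mul_add]

lemma od_mul_ev {x : S p} (h : par p x = x) (y : S p) :
    (parS p).od (x * y) = x * (parS p).od y := by
  simp only [Par.od_apply, parS_σ, map_mul, h, mul_smul_comm, mul_sub]

lemma ev_mul_od {x : S p} (h : par p x = -x) (y : S p) :
    (parS p).ev (x * y) = x * (parS p).od y := by
  simp only [Par.ev_apply, Par.od_apply, parS_σ, map_mul, h, mul_smul_comm, neg_mul,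
    sub_eq_add_neg, mul_add, mul_neg]

lemma od_mul_od {x : S p} (h : par p x = -x) (y : S p) :
    (parS p).od (x * y) = x * (parS p).ev y := by
  simp only [Par.ev_apply, Par.od_apply, parS_σ, map_mul, h, mul_smul_comm, mul_add, neg_mul,
    sub_neg_eq_add]

omit [Algebra ℚ K] in
lemma par_ι_ev {v : V} (h : p.σ v = v) : par p (ι p v) = ι p v := by rw [par_ι, h]

omit [Algebra ℚ K] in
lemma par_ι_od {v : V} (h : p.σ v = -v) : par p (ι p v) = -ι p v := by rw [par_ι, h, map_neg]

lemma comm_aux (y : S p) : (∀ x, (parS p).ev y * x = x * (parS p).ev y) ∧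
    ∀ x, (parS p).od y * x = par p x * (parS p).od y := by
  induction y using induction' with
  | h1 =>
    have : (parS p).σ 1 = 1 := by simp
    simp [Par.ev_of_ev this, Par.od_of_ev this]
  | hev v y hv hy =>
    rw [ev_mul_ev (par_ι_ev hv), od_mul_ev (par_ι_ev hv)]
    constructor
    · intro x; rw [mul_assoc, hy.1, ← mul_assoc, ι_comm_ev hv, mul_assoc]
    · intro x; rw [mul_assoc, hy.2, ← mul_assoc, ι_comm_ev hv, mul_assoc]
  | hod v y hv hy =>
    rw [ev_mul_od (par_ι_od hv), od_mul_od (par_ι_od hv)]
    constructor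
    · intro x; rw [mul_assoc, hy.2, ← mul_assoc, ι_comm_od' hv, mul_assoc]
    · intro x; rw [mul_assoc, hy.1, ← mul_assoc, ι_comm_od hv, mul_assoc]
  | hadd x y hx hy =>
    simp only [map_add, add_mul, mul_add]
    exact ⟨fun z => by rw [hx.1, hy.1], fun z => by rw [hx.2, hy.2]⟩
  | hsmul c x hx =>
    simp only [map_smul, smul_mul_assoc, mul_smul_comm]
    exact ⟨fun z => by rw [hx.1], fun z => by rw [hx.2]⟩

/-- Even elements are central. -/
lemma comm_ev {y : S p} (h : par p y = y) (x : S p) : y * x = x * y := by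
  have := (comm_aux y).1 x
  rwa [Par.ev_of_ev (p := parS p) h] at this

lemma comm_od {y : S p} (h : par p y = -y) (x : S p) : y * x = par p x * y := by
  have := (comm_aux y).2 x
  rwa [Par.od_of_od (p := parS p) h] at this

omit [Algebra ℚ K] in
/-- Recursive construction of linear maps out of `S p`. -/
theorem exists_rec {N : Type*} [AddCommGroup N] [Module K N] (α : V →ₗ[K] Module.End K N)
    (β : V →ₗ[K] S p →ₗ[K] N) (n0 : N) (hα : SC p α)
    (hev : ∀ v w, p.σ w = w → ∀ x,
      α w (β v x) + β w (ι p v * x) = α v (β w x) + β v (ι p w * x))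
    (hod : ∀ v w, p.σ v = -v → p.σ w = -w → ∀ x,
      α v (β w x) + β v (ι p w * x) = -(α w (β v x) + β w (ι p v * x))) :
    ∃ D : S p →ₗ[K] N, D 1 = n0 ∧ ∀ v x, D (ι p v * x) = α v (D x) + β v x := by
  let ρ : V →ₗ[K] Module.End K (N × S p) :=
    { toFun := fun v => LinearMap.prod
        (α v ∘ₗ LinearMap.fst K _ _ + β v ∘ₗ LinearMap.snd K _ _)
        (LinearMap.mulLeft K (ι p v) ∘ₗ LinearMap.snd K _ _)
      map_add' := fun v w => by
        refine LinearMap.ext fun z => Prod.ext ?_ ?_
        · simp; abel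
        · simp [add_mul]
      map_smul' := fun c v => by
        refine LinearMap.ext fun z => Prod.ext ?_ ?_ <;> simp }
  have hρ : ∀ v z, ρ v z = (α v z.1 + β v z.2, ι p v * z.2) := fun v z => rfl
  have hsc : SC p ρ := by
    constructor
    · intro v w h
      refine LinearMap.ext fun z => ?_
      simp only [Module.End.mul_apply, hρ, map_add, Prod.mk.injEq]
      constructor
      · have h1 := LinearMap.congr_fun (hα.ev v w h) z.1
        simp only [Module.End.mul_apply] at h1
        rw [h1, add_assoc, add_assoc, hev v w h]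
      · rw [← mul_assoc, ← mul_assoc, (sc_ι p).ev v w h]
    · intro v w hv hw
      refine LinearMap.ext fun z => ?_
      simp only [Module.End.mul_apply, hρ, map_add, LinearMap.neg_apply, Prod.neg_mk,
        Prod.mk.injEq]
      constructor
      · have h1 := LinearMap.congr_fun (hα.od v w hv hw) z.1
        simp only [Module.End.mul_apply, LinearMap.neg_apply] at h1
        rw [h1, add_assoc, hod v w hv hw]; abel
      · rw [← mul_assoc, ← mul_assoc, (sc_ι p).od v w hv hw, neg_mul]
  let F : S p →ₗ[K] N × S p :=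
    LinearMap.applyₗ (n0, (1 : S p)) ∘ₗ (lift ρ hsc).toLinearMap
  have hF : ∀ x, F x = lift ρ hsc x (n0, 1) := fun x => rfl
  have hFι : ∀ v x, F (ι p v * x) = ρ v (F x) := fun v x => by
    rw [hF, hF, map_mul, lift_ι, Module.End.mul_apply]
  have h2 : ∀ x, (F x).2 = x := by
    intro x
    induction x using induction with
    | h1 => simp [hF]
    | hι v x hx => rw [hFι, hρ, hx]
    | hadd x y hx hy => rw [map_add, Prod.snd_add, hx, hy]
    | hsmul c x hx => rw [map_smul, Prod.smul_snd, hx]
  refine ⟨LinearMap.fst K _ _ ∘ₗ F, by simp [hF], fun v x => ?_⟩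
  simp only [LinearMap.comp_apply, LinearMap.fst_apply]
  rw [hFι, hρ, h2]

end Vale.Agent.P269.Fock
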