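import Vale.Agent.P269.Fock.Loop

/-! The Virasoro operators `l_k = z⁻¹ D^(k+1)` and their exact quantisations. -/

namespace Vale.Agent.P269.Fock

open Finset

variable {K : Type*} [CommRing K] {H : Type*} [AddCommGroup H] [Module K H]

variable (K H) in
/-- Multiplication by `z^n`. -/
noncomputable def zp (n : ℤ) : Module.End K (LL H) := Finsupp.lmapDomain H K (· + n)

variable (K H) in
/-- The Euler operator `z ∂_z`. -/
noncomputable def eu : Module.End K (LL H) :=
  Finsupp.lsum K fun i => (i : K) • Finsupp.lsingle i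

/-- Constant loops. -/
noncomputable def cst : Module.End K H →ₐ[K] Module.End K (LL H) where
  toFun a := Finsupp.mapRange.linearMap a
  map_one' := by ext; simp
  map_mul' a b := by ext; simp
  map_zero' := by ext; simp
  map_add' a b := by ext; simp
  commutes' c := by ext; simp

@[simp] lemma zp_single (n i : ℤ) (v : H) :
    zp K H n (Finsupp.single i v) = Finsupp.single (i + n) v := by simp [zp]

lemma zp_apply (n : ℤ) (y : LL H) (j : ℤ) : zp K H n y j = y (j - n) := by
  have := Finsupp.mapDomain_apply (f := (· + n)) (add_left_injective n) y (j - n)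
  simpa [zp] using this

@[simp] lemma eu_single (i : ℤ) (v : H) :
    eu K H (Finsupp.single i v) = (i : K) • Finsupp.single i v := by simp [eu]

lemma eu_apply (y : LL H) (j : ℤ) : eu K H y j = (j : K) • y j := by
  induction y using Finsupp.induction_linear with
  | zero => simp
  | add a b ha hb => simp [ha, hb]
  | single i v =>
    rw [eu_single, Finsupp.smul_apply]
    by_cases h : j = i
    · rw [h]
    · simp [Finsupp.single_eq_of_ne h]

@[simp] lemma cst_single (a : Module.End K H) (i : ℤ) (v : H) :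
    cst a (Finsupp.single i v) = Finsupp.single i (a v) := by simp [cst]

@[simp] lemma cst_apply (a : Module.End K H) (y : LL H) (j : ℤ) : cst a y j = a (y j) := rfl

lemma LL_ext {N : Type*} [AddCommGroup N] [Module K N] {A B : LL H →ₗ[K] N}
    (h : ∀ i v, A (Finsupp.single i v) = B (Finsupp.single i v)) : A = B :=
  Finsupp.lhom_ext h

lemma zp_add (n m : ℤ) : zp K H (n + m) = zp K H n * zp K H m :=
  LL_ext fun i v => by simp [add_assoc, add_comm n m]

@[simp] lemma zp_zero : zp K H 0 = 1 := LL_ext fun i v => by simp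

lemma zp_neg_mul (n : ℤ) : zp K H (-n) * zp K H n = 1 := by rw [← zp_add]; simp

lemma zp_mul_neg (n : ℤ) : zp K H n * zp K H (-n) = 1 := by rw [← zp_add]; simp

lemma zp_comm (n m : ℤ) : Commute (zp K H n) (zp K H m) := by
  rw [Commute, SemiconjBy, ← zp_add, ← zp_add, add_comm]

lemma zp_pow (n : ℤ) (k : ℕ) : zp K H n ^ k = zp K H (k * n) := by
  induction k with
  | zero => simp
  | succ k ih => rw [pow_succ, ih, ← zp_add]; push_cast; ring_nf

lemma cst_zp (a : Module.End K H) (n : ℤ) : Commute (cst a) (zp K H n) :=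
  LL_ext fun i v => by simp

lemma cst_eu (a : Module.End K H) : Commute (cst a) (eu K H) := LL_ext fun i v => by simp

lemma eu_zp (n : ℤ) : eu K H * zp K H n = zp K H n * eu K H + (n : K) • zp K H n :=
  LL_ext fun i v => by simp [add_smul]

lemma isEv_zp (p : Par K H) (n : ℤ) : IsEv (p.fs ℤ) (p.fs ℤ) (zp K H n) := fun y => by
  ext j; simp [zp_apply]

lemma isEv_eu (p : Par K H) : IsEv (p.fs ℤ) (p.fs ℤ) (eu K H) := fun y => by
  ext j; simp [eu_apply]

lemma IsEv.cst {p : Par K H} {a : Module.End K H} (h : IsEv p p a) :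
    IsEv (p.fs ℤ) (p.fs ℤ) (cst a) := fun y => by
  ext j; simp [h _]

/-- `A` raises the degree by at most `n`. -/
def Up (n : ℤ) (A : Module.End K (LL H)) : Prop :=
  ∀ (i : ℤ) (y : LL H), (∀ j, i < j → y j = 0) → ∀ j, i + n < j → A y j = 0

/-- `A` raises the degree by at least `n`. -/
def Lo (n : ℤ) (A : Module.End K (LL H)) : Prop :=
  ∀ (i : ℤ) (y : LL H), (∀ j, j < i → y j = 0) → ∀ j, j < i + n → A y j = 0

section UpLo
variable {n m : ℤ} {A B : Module.End K (LL H)}

lemma Up.mono (h : Up n A) (hnm : n ≤ m) : Up m A := fun i y hy j hj => h i y hy j (by omega)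

lemma Lo.mono (h : Lo n A) (hnm : m ≤ n) : Lo m A := fun i y hy j hj => h i y hy j (by omega)

lemma Up.mul (hA : Up n A) (hB : Up m B) : Up (n + m) (A * B) := fun i y hy j hj =>
  hA (i + m) _ (hB i y hy) j (by omega)

lemma Lo.mul (hA : Lo n A) (hB : Lo m B) : Lo (n + m) (A * B) := fun i y hy j hj =>
  hA (i + m) _ (hB i y hy) j (by omega)

lemma Up.add (hA : Up n A) (hB : Up n B) : Up n (A + B) := fun i y hy j hj => by
  simp [hA i y hy j hj, hB i y hy j hj]

lemma Lo.add (hA : Lo n A) (hB : Lo n B) : Lo n (A + B) := fun i y hy j hj => by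
  simp [hA i y hy j hj, hB i y hy j hj]

lemma Up.smul (hA : Up n A) (c : K) : Up n (c • A) := fun i y hy j hj => by simp [hA i y hy j hj]

lemma Lo.smul (hA : Lo n A) (c : K) : Lo n (c • A) := fun i y hy j hj => by simp [hA i y hy j hj]

lemma Up.neg (hA : Up n A) : Up n (-A) := fun i y hy j hj => by simp [hA i y hy j hj]

lemma Lo.neg (hA : Lo n A) : Lo n (-A) := fun i y hy j hj => by simp [hA i y hy j hj]

lemma Up.sub (hA : Up n A) (hB : Up n B) : Up n (A - B) := fun i y hy j hj => by
  simp [hA i y hy j hj, hB i y hy j hj]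

lemma Lo.sub (hA : Lo n A) (hB : Lo n B) : Lo n (A - B) := fun i y hy j hj => by
  simp [hA i y hy j hj, hB i y hy j hj]

lemma Up.zero : Up n (0 : Module.End K (LL H)) := fun _ _ _ _ _ => rfl

lemma Lo.zero : Lo n (0 : Module.End K (LL H)) := fun _ _ _ _ _ => rfl

lemma Up.one : Up 0 (1 : Module.End K (LL H)) := fun i y hy j hj => hy j (by omega)

lemma Lo.one : Lo 0 (1 : Module.End K (LL H)) := fun i y hy j hj => hy j (by omega)

lemma Up.pow (hA : Up n A) (k : ℕ) : Up (k * n) (A ^ k) := by
  induction k with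
  | zero => simpa using Up.one
  | succ k ih => rw [pow_succ]; exact (ih.mul hA).mono (by push_cast; linarith)

lemma Lo.pow (hA : Lo n A) (k : ℕ) : Lo (k * n) (A ^ k) := by
  induction k with
  | zero => simpa using Lo.one
  | succ k ih => rw [pow_succ]; exact (ih.mul hA).mono (by push_cast; linarith)

lemma Up.sum {α : Type*} (s : Finset α) {A : α → Module.End K (LL H)} (h : ∀ a ∈ s, Up n (A a)) :
    Up n (∑ a ∈ s, A a) := fun i y hy j hj => by
  rw [LinearMap.sum_apply, Finsupp.finsetSum_apply]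
  exact sum_eq_zero fun a ha => h a ha i y hy j hj

lemma Lo.sum {α : Type*} (s : Finset α) {A : α → Module.End K (LL H)} (h : ∀ a ∈ s, Lo n (A a)) :
    Lo n (∑ a ∈ s, A a) := fun i y hy j hj => by
  rw [LinearMap.sum_apply, Finsupp.finsetSum_apply]
  exact sum_eq_zero fun a ha => h a ha i y hy j hj

lemma up_zp (n : ℤ) : Up n (zp K H n) := fun i y hy j hj => by rw [zp_apply, hy _ (by omega)]

lemma lo_zp (n : ℤ) : Lo n (zp K H n) := fun i y hy j hj => by rw [zp_apply, hy _ (by omega)]

lemma up_eu : Up 0 (eu K H) := fun i y hy j hj => by rw [eu_apply, hy _ (by omega), smul_zero]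

lemma lo_eu : Lo 0 (eu K H) := fun i y hy j hj => by rw [eu_apply, hy _ (by omega), smul_zero]

lemma up_cst (a : Module.End K H) : Up 0 (cst a) := fun i y hy j hj => by
  rw [cst_apply, hy _ (by omega), map_zero]

lemma lo_cst (a : Module.End K H) : Lo 0 (cst a) := fun i y hy j hj => by
  rw [cst_apply, hy _ (by omega), map_zero]

lemma Up.single (hA : Up n A) (i : ℤ) (v : H) {j : ℤ} (hj : i + n < j) :
    A (Finsupp.single i v) j = 0 :=
  hA i _ (fun _ hl => Finsupp.single_eq_of_ne hl.ne') j hj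

lemma Lo.single (hA : Lo n A) (i : ℤ) (v : H) {j : ℤ} (hj : j < i + n) :
    A (Finsupp.single i v) j = 0 :=
  hA i _ (fun _ hl => Finsupp.single_eq_of_ne hl.ne) j hj

lemma Up.fin (hA : Up n A) (m : ℕ) (hm : n.toNat ≤ m) (v : H) :
    pos K H (A (Finsupp.single (-(m : ℤ) - 1) v)) = 0 := by
  ext j
  rw [pos_apply, hA.single _ _ (by omega), Finsupp.zero_apply]

end UpLo

namespace Frame

variable {p : Par K H} {ι : Type*} [Fintype ι] {fr : Frame p ι}

lemma Quad.of_up {n : ℤ} {A : Module.End K (LL H)} (h1 : IsEv (p.fs ℤ) (p.fs ℤ) A)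
    (h2 : fr.Adj A (-A)) (h3 : Up n A) : fr.Quad A := ⟨h1, h2, n.toNat, h3.fin⟩

lemma Adj.of_single {A B : Module.End K (LL H)} (h : ∀ i j v w,
    fr.Ω (A (Finsupp.single i v)) (Finsupp.single j w) =
      fr.Ω (Finsupp.single i v) (B (Finsupp.single j w))) : fr.Adj A B := by
  intro y y'
  induction y using Finsupp.induction_linear with
  | zero => simp
  | add a b ha hb => simp [ha, hb]
  | single i v =>
    induction y' using Finsupp.induction_linear with
    | zero => simp
    | add a b ha hb => simp [ha, hb]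
    | single j w => exact h i j v w

lemma adj_zp (n : ℤ) : fr.Adj (zp K H n) (sg K n • zp K H n) := Adj.of_single fun i j v w => by
  simp only [zp_single, LinearMap.smul_apply, map_smul, Ω_single, smul_eq_mul]
  rw [show i + n + j + 1 = i + (j + n) + 1 by ring]
  split_ifs
  · rw [sg_add]; linear_combination (-sg K j * fr.η v w) * sg_mul_self (K := K) n
  · simp

lemma adj_eu : fr.Adj (eu K H) (-eu K H - 1) := Adj.of_single fun i j v w => by
  simp only [eu_single, LinearMap.smul_apply, map_smul, Ω_single, smul_eq_mul, LinearMap.sub_apply,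
    LinearMap.neg_apply, Module.End.one_apply, map_sub, map_neg]
  split_ifs with h
  · rw [show i = -j - 1 by omega]; push_cast; ring
  · simp

lemma adj_cst {a b : Module.End K H} (h : ∀ v w, fr.η (a v) w = fr.η v (b w)) :
    fr.Adj (cst a) (cst b) := Adj.of_single fun i j v w => by
  simp only [cst_single, Ω_single, h]

variable (fr) in
/-- The supertrace. -/
noncomputable def str : Module.End K H →ₗ[K] K where
  toFun T := ∑ a, fr.η (fr.e a) (T (fr.f a))
  map_add' _ _ := by simp [sum_add_distrib]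
  map_smul' _ _ := by simp [Finset.mul_sum]

lemma str_apply (T : Module.End K H) : fr.str T = ∑ a, fr.η (fr.e a) (T (fr.f a)) := rfl

/-- Moving an operator across the diagonal class. -/
lemma sum_adj {N : Type*} [AddCommGroup N] [Module K N] (B : H →ₗ[K] H →ₗ[K] N)
    {a b : Module.End K H} (h : ∀ v w, fr.η (a v) w = fr.η v (b w)) :
    ∑ c, B (b (fr.e c)) (fr.f c) = ∑ c, B (fr.e c) (a (fr.f c)) := by
  have e1 : ∀ c, B (b (fr.e c)) (fr.f c) =
      ∑ d, fr.η (a (fr.f d)) (fr.e c) • B (fr.e d) (fr.f c) := fun c => by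
    conv_lhs => rw [← fr.left (b (fr.e c))]
    simp [map_sum, h]
  have e2 : ∀ d, B (fr.e d) (a (fr.f d)) =
      ∑ c, fr.η (a (fr.f d)) (fr.e c) • B (fr.e d) (fr.f c) := fun d => by
    conv_lhs => rw [← fr.right (a (fr.f d))]
    simp [map_sum]
  rw [sum_congr rfl fun c _ => e1 c, sum_comm, sum_congr rfl fun d _ => e2 d]

lemma str_comm {a b : Module.End K H} (h : ∀ v w, fr.η (a v) w = fr.η v (b w))
    (h' : ∀ v w, fr.η (b v) w = fr.η v (a w)) (T : Module.End K H) :
    fr.str (a * T) = fr.str (T * a) := by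
  have := sum_adj (fr.η.compl₂ T) h
  simp only [LinearMap.compl₂_apply, h'] at this
  exact this

variable [Algebra ℚ K]

lemma Quad.aug_qz_ι {A : Module.End K (LL H)} (hA : fr.Quad A) (v : VV H) :
    aug _ (fr.qz A (Fock.ι _ v)) = -fr.neg (A (up K H v)) fr.dil := by
  have := hA.isQ.apply (up K H v) 1
  simp only [h_up, mul_one] at this
  simp [this, h_apply]

lemma Quad.aug_qz_ι_ι {A : Module.End K (LL H)} (hA : fr.Quad A) (v w : VV H) :
    aug _ (fr.qz A (Fock.ι _ v * Fock.ι _ w)) = fr.neg (A (up K H v)) w := by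
  have := hA.isQ.apply (up K H v) (Fock.ι _ w)
  simp only [h_up] at this
  simp [this, h_apply]

end Frame

/-- The data of the Virasoro operators. -/
structure VD {p : Par K H} {ι : Type*} [Fintype ι] (fr : Frame p ι) where
  μ : Module.End K H
  ρ : Module.End K H
  evμ : IsEv p p μ
  evρ : IsEv p p ρ
  adjμ : ∀ v w, fr.η (μ v) w = -fr.η v (μ w)
  adjρ : ∀ v w, fr.η (ρ v) w = fr.η v (ρ w)
  comm : μ * ρ = ρ * μ + ρ

variable [Algebra ℚ K]

/-- `e_{k-i}(x, x + 1, …, x + k - 1)`. -/
noncomputable def esyK (k i : ℕ) (x : K) : K :=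
  (∏ j ∈ range k, (Polynomial.X + Polynomial.C (x + j))).coeff i

omit [Algebra ℚ K] in
lemma esyK_succ_zero (k : ℕ) (x : K) : esyK (k + 1) 0 x = (x + k) * esyK k 0 x := by
  simp [esyK, prod_range_succ, mul_add, mul_comm]

omit [Algebra ℚ K] in
lemma esyK_succ_succ (k i : ℕ) (x : K) :
    esyK (k + 1) (i + 1) x = esyK k i x + (x + k) * esyK k (i + 1) x := by
  rw [esyK, prod_range_succ, mul_add, Polynomial.coeff_add, Polynomial.coeff_mul_X,
    Polynomial.coeff_mul_C, mul_comm]
  rfl

omit [Algebra ℚ K] in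
lemma esyK_of_lt {k i : ℕ} (h : k < i) (x : K) : esyK k i x = 0 := by
  induction k generalizing i with
  | zero => simp [esyK, Polynomial.coeff_one, h.ne']
  | succ k ih =>
    obtain ⟨i, rfl⟩ := Nat.exists_eq_succ_of_ne_zero (by omega : i ≠ 0)
    rw [esyK_succ_succ, ih (by omega), ih (by omega)]; simp

namespace VD

variable {p : Par K H} {ι : Type*} [Fintype ι] {fr : Frame p ι} (d : VD fr)

/-- `D = z² ∂_z + z (1/2 + μ) + ρ`. -/
noncomputable def D : Module.End K (LL H) :=
  zp K H 1 * (eu K H + hf K • 1 + cst d.μ) + cst d.ρ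

/-- `l_(k-1) = z⁻¹ D^k`. -/
noncomputable def ell (k : ℕ) : Module.End K (LL H) := zp K H (-1) * d.D ^ k

lemma D_single (i : ℤ) (v : H) : d.D (Finsupp.single i v) =
    Finsupp.single (i + 1) (((i : K) + hf K) • v + d.μ v) + Finsupp.single i (d.ρ v) := by
  simp [D, add_smul]

lemma isEv_D : IsEv (p.fs ℤ) (p.fs ℤ) d.D :=
  ((isEv_zp p 1).mul (((isEv_eu p).add (IsEv.one.smul _)).add d.evμ.cst)).add d.evρ.cst

lemma up_D : Up 1 d.D :=
  ((up_zp 1).mul ((up_eu.add (Up.one.smul _)).add (up_cst _))).add ((up_cst _).mono zero_le_one)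

lemma lo_D : Lo 0 d.D :=
  (((lo_zp 1).mul ((lo_eu.add (Lo.one.smul _)).add (lo_cst _))).mono (by simp)).add (lo_cst _)

lemma adj_D : fr.Adj d.D (zp K H (-1) * d.D * zp K H 1) := by
  have h1 : fr.Adj (cst d.μ) (cst (-d.μ)) := Frame.adj_cst fun v w => by simp [d.adjμ]
  have := ((Frame.adj_zp (fr := fr) 1).mul ((Frame.adj_eu.add (Frame.Adj.one.smul (hf K))).add
    h1)).add (Frame.adj_cst d.adjρ)
  suffices e : zp K H (-1) * d.D * zp K H 1 =
      (-eu K H - 1 + hf K • 1 + cst (-d.μ)) * sg K 1 • zp K H 1 + cst d.ρ by rw [e]; exact this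
  refine LL_ext fun i v => ?_
  have e : sg K 1 = -1 := by simpa using sg_nat (K := K) 1
  have e2 : (1 : K) = hf K + hf K := (hf_add K).symm
  simp only [Module.End.mul_apply, zp_single, D_single, map_add, e, LinearMap.add_apply,
    LinearMap.smul_apply, map_smul, LinearMap.sub_apply, LinearMap.neg_apply, eu_single,
    Module.End.one_apply, cst_single, add_neg_cancel_right, Finsupp.single_add, Finsupp.single_neg,
    ← Finsupp.smul_single, map_neg]
  match_scalars <;> first | ring1 | linear_combination -e2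

lemma D_zi : d.D * zp K H (-1) = zp K H (-1) * d.D - 1 := by
  refine LL_ext fun i v => ?_
  simp only [Module.End.mul_apply, zp_single, D_single, map_add, LinearMap.sub_apply,
    Module.End.one_apply, add_neg_cancel_right, neg_add_cancel_right, Finsupp.single_add,
    ← Finsupp.smul_single, map_smul]
  match_scalars <;> ring1

lemma D_pow_zi (k : ℕ) :
    d.D ^ (k + 1) * zp K H (-1) = zp K H (-1) * d.D ^ (k + 1) - ((k : K) + 1) • d.D ^ k := by
  induction k with
  | zero => simp [D_zi]
  | succ k ih =>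
    rw [pow_succ', mul_assoc, ih, mul_sub, ← mul_assoc, D_zi, mul_smul_comm, ← pow_succ', sub_mul,
      mul_assoc, ← pow_succ', one_mul]
    push_cast
    module

lemma quad_ell (k : ℕ) : fr.Quad (d.ell k) := by
  refine Frame.Quad.of_up ((isEv_zp p _).mul (d.isEv_D.pow k)) ?_ ((up_zp _).mul (d.up_D.pow k))
  have := (Frame.adj_zp (fr := fr) (-1)).mul (d.adj_D.pow k)
  suffices e : -d.ell k = (zp K H (-1) * d.D * zp K H 1) ^ k * sg K (-1) • zp K H (-1) by
    rw [e]; exact this
  have e : sg K (-1) = -1 := by simpa using sg_nat (K := K) 1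
  have e2 : ∀ k : ℕ, (zp K H (-1) * d.D * zp K H 1) ^ k * zp K H (-1) = zp K H (-1) * d.D ^ k := by
    intro k
    induction k with
    | zero => simp
    | succ k ih =>
      rw [pow_succ, mul_assoc, mul_assoc _ (zp K H 1), zp_mul_neg, mul_one, ← mul_assoc, ih,
        pow_succ, mul_assoc]
  rw [e, mul_smul_comm, e2, ell]
  ext; simp

lemma lo_ell (k : ℕ) : Lo (-1) (d.ell k) := ((lo_zp (-1)).mul (d.lo_D.pow k)).mono (by simp)

lemma up_ell (k : ℕ) : Up (k - 1) (d.ell k) :=
  ((up_zp (-1)).mul (d.up_D.pow k)).mono (by simp)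

@[simp] lemma ell_zero : d.ell 0 = zp K H (-1) := by simp [ell]

lemma ell_lie (k : ℕ) :
    d.ell 0 * d.ell (k + 1) - d.ell (k + 1) * d.ell 0 = ((k : K) + 1) • d.ell k := by
  rw [ell_zero, ell, mul_assoc, D_pow_zi, mul_sub, mul_smul_comm, ell]
  abel

/-- The total weight. -/
noncomputable def wt : Module.End K (LL H) := eu K H + cst d.μ

lemma wt_D : d.wt * d.D = d.D * (d.wt + 1) := by
  refine LL_ext fun i v => ?_
  have := LinearMap.congr_fun d.comm v
  simp only [Module.End.mul_apply, LinearMap.add_apply] at this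
  simp only [wt, Module.End.mul_apply, D_single, map_add, LinearMap.add_apply, eu_single,
    cst_single, map_smul, Module.End.one_apply, this, Finsupp.single_add, ← Finsupp.smul_single]
  match_scalars <;> ring1

omit [Algebra ℚ K] in
lemma wt_zp (n : ℤ) : d.wt * zp K H n = zp K H n * (d.wt + (n : K) • 1) := by
  rw [wt, add_mul, eu_zp, (cst_zp _ _).eq, mul_add, mul_add, mul_smul_comm, mul_one]; abel

lemma wt_ell (k : ℕ) : d.wt * d.ell k = d.ell k * (d.wt + ((k : K) - 1) • 1) := by
  have : d.wt * d.D ^ k = d.D ^ k * (d.wt + (k : K) • 1) := by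
    induction k with
    | zero => simp
    | succ k ih =>
      rw [pow_succ, ← mul_assoc, ih, mul_assoc, add_mul, wt_D, mul_assoc]
      congr 1
      simp only [mul_add, mul_one, smul_mul_assoc, mul_smul_comm, one_mul]
      push_cast; module
  rw [ell, ← mul_assoc, wt_zp, mul_assoc, add_mul, this, mul_assoc]
  congr 1
  simp only [mul_add, mul_one, smul_mul_assoc, mul_smul_comm, one_mul]
  push_cast; module

/-- The constant term of `L_0`. -/
noncomputable def c0 : K := -(hf K * hf K) * fr.str (d.μ * d.μ - (hf K * hf K) • 1)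

/-- The Virasoro operator `L_(k-1)` acting on `S(H[z])`. -/
noncomputable def L (k : ℕ) : Module.End K (S (p.fs ℕ)) :=
  fr.qz (d.ell k) + (if k = 1 then d.c0 else 0) • 1

lemma isQ_L (k : ℕ) : IsQ fr.h (d.L k) (d.ell k) := (d.quad_ell k).isQ.add_const _

lemma aug_lie (k : ℕ) :
    aug _ ((fr.qz (d.ell 0) * fr.qz (d.ell (k + 1)) - fr.qz (d.ell (k + 1)) * fr.qz (d.ell 0)) 1) =
      ((k : K) + 1) * (if k = 1 then d.c0 else 0) := by
  let T : Module.End K H := Finsupp.lapply 0 ∘ₗ d.ell (k + 1) ∘ₗ Finsupp.lsingle (-1)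
  have hT : ∀ v, T v = d.ell (k + 1) (Finsupp.single (-1) v) 0 := fun _ => rfl
  have h0 := d.quad_ell 0
  have hc : fr.cas (d.ell 0) = 0 := by
    rw [Frame.cas_eq (N := 0) fun m hm v => by rw [ell_zero]; exact (up_zp (-1)).fin m (by simp) v]
    simp
  have e1 : aug _ (fr.qz (d.ell (k + 1)) (fr.qz (d.ell 0) 1)) = 0 := by
    rw [Frame.qz_one, hc, zero_sub, map_neg, map_neg, (d.quad_ell _).aug_qz_ι, neg_neg,
      Frame.neg_apply, Frame.dil, up_single, Frame.Ω_single_right,
      d.lo_ell (k + 1) 0 _ (fun j hj => up_apply_neg _ hj) _ (by simp)]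
    simp
  have e2 : aug _ (fr.qz (d.ell 0) (fr.qz (d.ell (k + 1)) 1)) = -hf K * fr.str T := by
    obtain ⟨N, hN⟩ := (d.quad_ell (k + 1)).fin
    rw [Frame.qz_one, map_sub, map_sub, h0.aug_qz_ι, Frame.neg_apply, Frame.dil, up_single,
      Frame.Ω_single_right, ell_zero, zp_apply, up_apply_neg _ (by simp),
      Frame.cas_eq (N := N + 1) fun m hm => hN m (by omega), map_smul, map_smul, map_sum, map_sum,
      sum_eq_single 0]
    · simp only [Frame.casT, map_sum, map_smul, ← d.ell_zero, h0.aug_qz_ι_ι]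
      simp only [ell_zero, up_single, zp_single]
      have e : ∀ a w, fr.neg (Finsupp.single (-1) (fr.e a)) w =
          fr.η (fr.e a) (w 0) := fun a w => by simpa using fr.neg_single 0 (fr.e a) w
      simp [e, Frame.str_apply, hT]
    · intro m _ hm
      simp only [Frame.casT, map_sum, map_smul, ← d.ell_zero, h0.aug_qz_ι_ι]
      refine sum_eq_zero fun a _ => ?_
      obtain ⟨m, rfl⟩ := Nat.exists_eq_succ_of_ne_zero hm
      have : (((m + 1 : ℕ) : ℤ) + -1) = m := by push_cast; ring
      rw [ell_zero, up_single, zp_single, Nat.succ_eq_add_one, this, ← up_single (K := K),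
        Frame.neg_up]
      simp
    · simp
  rw [LinearMap.sub_apply, map_sub, Module.End.mul_apply, Module.End.mul_apply, e1, e2, sub_zero]
  split_ifs with hk
  · subst hk
    have : T = d.μ * d.μ - (hf K * hf K) • 1 := by
      ext v
      have e2 : (1 : K) = hf K + hf K := (hf_add K).symm
      rw [hT, ell, pow_succ, pow_one, Module.End.mul_apply, Module.End.mul_apply, zp_apply,
        D_single, map_add, D_single, D_single]
      simp only [Finsupp.add_apply, Finsupp.single_apply]
      norm_num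
      match_scalars <;> first | ring1 | linear_combination (-hf K) * e2 | linear_combination -e2
    rw [this, c0]
    linear_combination (hf K * fr.str (d.μ * d.μ - (hf K * hf K) • 1)) * hf_add K
  · have e : d.μ * T = T * d.μ + ((k : K) - 1) • T := by
      ext v
      have := DFunLike.congr_fun
        (LinearMap.congr_fun (d.wt_ell (k + 1)) (Finsupp.single (-1) v)) 0
      simp only [wt, Module.End.mul_apply, LinearMap.add_apply, Finsupp.add_apply, eu_apply,
        cst_apply, eu_single, cst_single, map_add, map_smul, LinearMap.smul_apply,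
        Module.End.one_apply, Finsupp.smul_apply, ← hT] at this
      simp only [Module.End.mul_apply, LinearMap.add_apply, LinearMap.smul_apply]
      push_cast at this
      rw [zero_smul, zero_add] at this
      rw [this]; module
    have e3 := Frame.str_comm (fr := fr) (a := d.μ) (b := -d.μ) (fun v w => by simp [d.adjμ])
      (fun v w => by simp [d.adjμ]) T
    rw [e, map_add, map_smul, add_eq_left, smul_eq_mul] at e3
    have hu : IsUnit ((k : K) - 1) := by
      have h0 : ((k : ℚ) - 1) ≠ 0 := by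
        rw [sub_ne_zero]; exact_mod_cast hk
      simpa using (IsUnit.mk0 _ h0).map (algebraMap ℚ K)
    rw [hu.mul_right_eq_zero.mp e3]; simp

lemma qz_lie (k : ℕ) :
    fr.qz (d.ell 0) * fr.qz (d.ell (k + 1)) - fr.qz (d.ell (k + 1)) * fr.qz (d.ell 0) =
      ((k : K) + 1) • d.L k := by
  have h := (d.quad_ell 0).isQ.lie (d.quad_ell (k + 1)).isQ
  rw [ell_lie] at h
  rw [((d.quad_ell k).smul _).eq_qz h, aug_lie, (d.quad_ell k).qz_smul, L, smul_add, mul_smul]

variable {M : Type*} [AddCommGroup M] [Module K M] {Z : S (p.fs ℕ) →ₗ[K] M}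

/-- The constants in the Virasoro constraints come for free. -/
theorem vir_iff : (∀ k, Kill fr.h Z (d.ell k)) ↔ ∀ k, Z ∘ₗ d.L k = 0 := by
  refine ⟨fun h k => ?_, fun h k => ⟨_, d.isQ_L k, h k⟩⟩
  obtain ⟨c, hc⟩ := (d.quad_ell 0).kill_iff.mp (h 0)
  obtain ⟨c', hc'⟩ := (d.quad_ell (k + 1)).kill_iff.mp (h (k + 1))
  have := comp_lie_eq_zero hc hc'
  have e : (fr.qz (d.ell 0) + c • 1) * (fr.qz (d.ell (k + 1)) + c' • 1) -
      (fr.qz (d.ell (k + 1)) + c' • 1) * (fr.qz (d.ell 0) + c • 1) = ((k : K) + 1) • d.L k := by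
    rw [← qz_lie]
    simp only [mul_add, add_mul, smul_mul_assoc, mul_smul_comm, mul_one, one_mul, smul_add]
    module
  rw [e, LinearMap.comp_smul] at this
  have hu : IsUnit ((k : K) + 1) := by
    have h0 : ((k : ℚ) + 1) ≠ 0 := by positivity
    simpa using (IsUnit.mk0 _ h0).map (algebraMap ℚ K)
  exact hu.smul_eq_zero.mp this

lemma kill_aeval (h : ∀ k, Kill fr.h Z (d.ell k)) (P : Polynomial K) :
    Kill fr.h Z (zp K H (-1) * Polynomial.aeval d.D P) := by
  rw [Polynomial.aeval_eq_sum_range, Finset.mul_sum]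
  exact Kill.sum _ fun k _ => by rw [mul_smul_comm]; exact (h k).smul _

lemma D_pow_single {v : H} {x : K} (hv : d.μ v = x • v) (k : ℕ) (m : ℤ) :
    (d.D ^ k) (Finsupp.single m v) = ∑ i ∈ range (k + 1),
      esyK k i (x + m + hf K) • Finsupp.single (m + k - i) ((d.ρ ^ i) v) := by
  have hρ : ∀ i : ℕ, d.μ ((d.ρ ^ i) v) = (x + i) • (d.ρ ^ i) v := by
    intro i
    induction i with
    | zero => simpa using hv
    | succ i ih =>
      rw [pow_succ', Module.End.mul_apply, ← Module.End.mul_apply d.μ, d.comm, LinearMap.add_apply,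
        Module.End.mul_apply, ih, map_smul]
      push_cast; module
  induction k with
  | zero => simp [esyK]
  | succ k ih =>
    have e1 : ∀ i ∈ range (k + 1),
        d.D (esyK k i (x + m + hf K) • Finsupp.single (m + k - i) ((d.ρ ^ i) v)) =
        ((x + m + hf K + k) * esyK k i (x + m + hf K)) •
          Finsupp.single (m + (k + 1 : ℕ) - i) ((d.ρ ^ i) v) +
        esyK k i (x + m + hf K) •
          Finsupp.single (m + (k + 1 : ℕ) - (i + 1 : ℕ)) ((d.ρ ^ (i + 1)) v) := by
      intro i _
      rw [map_smul, D_single, hρ, ← add_smul, ← Finsupp.smul_single, smul_add, smul_smul,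
        pow_succ', Module.End.mul_apply]
      congr 2
      · push_cast; ring
      · congr 1; push_cast; ring
      · congr 1; push_cast; ring
    have e2 : ∑ i ∈ range (k + 1), ((x + m + hf K + k) * esyK k i (x + m + hf K)) •
          Finsupp.single (m + (k + 1 : ℕ) - i : ℤ) ((d.ρ ^ i) v) =
        ∑ i ∈ range (k + 1 + 1), ((x + m + hf K + k) * esyK k i (x + m + hf K)) •
          Finsupp.single (m + (k + 1 : ℕ) - i : ℤ) ((d.ρ ^ i) v) := by
      rw [sum_range_succ _ (k + 1), esyK_of_lt (Nat.lt_succ_self k)]; simp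
    rw [pow_succ', Module.End.mul_apply, ih, map_sum, sum_congr rfl e1, sum_add_distrib, e2,
      sum_range_succ' _ (k + 1), sum_range_succ' _ (k + 1)]
    simp only [esyK_succ_succ, esyK_succ_zero, add_smul (esyK k _ _), sum_add_distrib]
    abel

lemma ell_single {v : H} {x : K} (hv : d.μ v = x • v) (k : ℕ) (m : ℤ) :
    d.ell k (Finsupp.single m v) = ∑ i ∈ range (k + 1),
      esyK k i (x + m + hf K) • Finsupp.single (m + k - i - 1) ((d.ρ ^ i) v) := by
  rw [ell, Module.End.mul_apply, d.D_pow_single hv, map_sum]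
  simp only [map_smul, zp_single, sub_eq_add_neg]

end VD

end Vale.Agent.P269.Fock
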